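import Vale.Agent.P324.Family

/-! Completeness of the dynamic program. -/

namespace Vale.Agent.P324

open Finset

namespace Ctx

variable {C : Ctx}

variable (C) in
/-- no exchange with the boundary slot improves it -/
def Guar (J : Finset ℕ) (s l β : ℕ) (κ : ℕ → ℕ) : Prop :=
  ∀ τ, Sched C.r J τ → ∀ y ∈ J, (∀ z ∈ J, ¬ C.r y z) → ¬ C.r y s → ¬ C.r y l → ¬ C.r y β →
    ∀ b, b = l ∨ b = β → κ b < κ y → ∃ z ∈ J, C.r z b ∧ τ y ≤ τ z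

theorem step {J : Finset ℕ} (hJ : ∀ y ∈ J, y ∈ C.W) (hG : Good C.r J) {θ : ℕ} (hθ : θ ∈ J)
    (hs : ∀ z ∈ J, ¬ C.r θ z) {P₁ P₂ P₃ : ℕ → Prop} (h₁ : C.IsTerm P₁) (h₂ : C.IsTerm P₂)
    (h₃ : C.IsTerm P₃) (hT : ∀ y ∈ J, y ≠ θ → P₁ y ∨ P₂ y ∨ P₃ y)
    (hP : ∀ y ∈ C.W, C.r y θ → P₁ y) :
    ∃ l ∈ J, ∃ β ∈ J, ∃ (T : ℕ → Prop) (κ : ℕ → ℕ), (∀ y, T y ↔ P₁ y ∨ P₂ y ∨ P₃ y) ∧
      Valid C.r J θ l β ∧ C.Bdry T θ l β κ ∧ C.Guar (Lset C.r J θ l β) θ l β κ ∧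
      Good C.r (Lset C.r J θ l β) ∧ Good C.r (Rset C.r J l β) ∧ Good C.r (J \ Rset C.r J l β) ∧
      ∃ τ, Sched C.r J τ ∧ ∀ z ∈ Lset C.r J θ l β, τ z < τ θ := by
  obtain ⟨l, hl, hlθ, h⟩ := exists_cut C.trans hG hθ hs (C.kone P₁)
  obtain ⟨Q₂, Q₃, q₂, q₃, hQ, hl'⟩ : ∃ Q₂ Q₃, C.IsTerm Q₂ ∧ C.IsTerm Q₃ ∧
      (∀ y, (P₁ y ∨ Q₂ y ∨ Q₃ y) ↔ P₁ y ∨ P₂ y ∨ P₃ y) ∧ (P₁ l ∨ Q₂ l) := by
    rcases hT l hl hlθ with h | h | h
    · exact ⟨P₂, P₃, h₂, h₃, fun _ => Iff.rfl, Or.inl h⟩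
    · exact ⟨P₂, P₃, h₂, h₃, fun _ => Iff.rfl, Or.inr h⟩
    · exact ⟨P₃, P₂, h₃, h₂, fun _ => or_congr_right or_comm, Or.inr h⟩
  obtain ⟨β, hβ, hβθ, hβl, hle, hv, g1, g2, g3, g4, g5⟩ := h (C.ktwo P₁ Q₂)
  refine ⟨l, hl, β, hβ, _, _, hQ, hv, bdry h₁ q₂ q₃ (hJ θ hθ) hP (hJ l hl) hl' (hJ β hβ)
    ((hQ β).2 (hT β hβ hβθ)) hle ?_, ?_, g1, g2, g3, g4⟩
  · intro b hb
    have key : ∀ x ∈ J, (x = θ ∨ x = l ∨ x = β) → ¬ C.r b x := fun x hx hx' hr =>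
      hv.2 x hx (Or.inr ⟨hx', by rcases hb with rfl | rfl; exacts [Or.inl hr, Or.inr hr]⟩)
    exact ⟨key θ hθ (Or.inl rfl), key l hl (Or.inr (Or.inl rfl)), key β hβ (Or.inr (Or.inr rfl))⟩
  · intro τ hτ y hy y1 y2 y3 y4 b hb hlt
    have := mem_Lset.1 hy
    exact g5 τ hτ y hy y1 y2 y3 y4 b (kap_impr (hJ y this.1) (hJ l hl) (hJ β hβ)
      (fun h => this.2.1 (Or.inr (Or.inl h))) hβl hle hb hlt)

theorem card_Lset_lt {J : Finset ℕ} {θ l β : ℕ} (hθ : θ ∈ J) :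
    (Lset C.r J θ l β).card < J.card :=
  Finset.card_lt_card ⟨fun _ hy => (mem_Lset.1 hy).1,
    fun h => (mem_Lset.1 (h hθ)).2.1 (Or.inl rfl)⟩

theorem card_Rset_lt {J : Finset ℕ} {θ l β : ℕ} (hθ : θ ∈ J) (hv : Valid C.r J θ l β) :
    (Rset C.r J l β).card < J.card :=
  Finset.card_lt_card ⟨fun _ hy => (mem_Rset.1 hy).1,
    fun h => hv.2 θ hθ (Or.inr ⟨Or.inl rfl, (mem_Rset.1 (h hθ)).2⟩)⟩

theorem excl_iff {a b c d e : Prop} : (¬ (a ∨ b ∨ c) ∧ ¬ (d ∨ e)) ↔ ¬ a ∧ ¬ (b ∨ d ∨ c ∨ e) := by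
  tauto

theorem res3 {a b c d : Prop} (h : a ∨ b ∨ c ∨ d) (h' : ¬ (a ∨ b ∨ c)) : d := by
  tauto

variable (C) in
def StI (k : ℕ) : Prop := ∀ (J : Finset ℕ) (U T : ℕ → Prop), C.IsUp U → C.IsTri T →
  (∀ y, y ∈ J ↔ y ∈ C.W ∧ U y ∧ T y) → Good C.r J → J.card ≤ k → C.Der k J

variable (C) in
def StII (k : ℕ) : Prop := ∀ (J : Finset ℕ) (U T : ℕ → Prop) (s l β : ℕ) (κ : ℕ → ℕ),
  C.IsUp U → C.Bdry T s l β κ →
  (∀ y, y ∈ J ↔ y ∈ C.W ∧ U y ∧ T y ∧ ¬ (y = l ∨ C.r l y ∨ y = β ∨ C.r β y)) →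
  C.Guar J s l β κ → Good C.r J → J.card ≤ k → C.Der k J

theorem stI_succ {k : ℕ} (h1 : C.StI k) (h2 : C.StII k) : C.StI (k + 1) := by
  intro J U T hU hT hJ hG hk
  rcases J.eq_empty_or_nonempty with rfl | hne
  · exact C.der_empty _
  obtain ⟨θ, hθ, hmax⟩ := Finset.exists_max_image J C.ρ hne
  have hW : ∀ y ∈ J, y ∈ C.W := fun y hy => ((hJ y).1 hy).1
  have θW := hW θ hθ
  have hs : ∀ z ∈ J, ¬ C.r θ z := fun z hz hr => by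
    have := C.rho_mono θ θW z (hW z hz) hr
    have := hmax z hz
    omega
  obtain ⟨P₁, P₂, P₃, h₁, h₂, h₃, hP, hθ1⟩ : ∃ P₁ P₂ P₃, C.IsTerm P₁ ∧ C.IsTerm P₂ ∧
      C.IsTerm P₃ ∧ (∀ y ∈ C.W, T y ↔ P₁ y ∨ P₂ y ∨ P₃ y) ∧ P₁ θ := by
    obtain ⟨P₁, P₂, P₃, h₁, h₂, h₃, hP⟩ := hT
    rcases (hP θ θW).1 ((hJ θ).1 hθ).2.2 with h | h | h
    · exact ⟨P₁, P₂, P₃, h₁, h₂, h₃, hP, h⟩
    · exact ⟨P₂, P₁, P₃, h₂, h₁, h₃, fun y hy => (hP y hy).trans or_left_comm, h⟩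
    · exact ⟨P₃, P₁, P₂, h₃, h₁, h₂, fun y hy => (hP y hy).trans or_rotate.symm, h⟩
  have hlt : ∀ y ∈ J, y ≠ θ → C.ρ y < C.ρ θ := fun y hy hne =>
    lt_of_le_of_ne (hmax y hy) (fun h => hne (C.rho_inj y (hW y hy) θ θW h))
  have hT' : ∀ y ∈ C.W, ((P₁ y ∧ C.ρ y < C.ρ θ) ∨ (P₂ y ∧ C.ρ y < C.ρ θ) ∨
      (P₃ y ∧ C.ρ y < C.ρ θ)) ↔ T y ∧ C.ρ y < C.ρ θ := fun y hy => by
    rw [hP y hy, or_and_right, or_and_right]
  obtain ⟨l, hl, β, hβ, T', κ, hT'', hv, hB, g0, g1, g2, -, -⟩ := step hW hG hθ hs (h₁.low θ)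
    (h₂.low θ) (h₃.low θ) (fun y hy hne => (hT' y (hW y hy)).2 ⟨((hJ y).1 hy).2.2, hlt y hy hne⟩)
    (fun y hy h => ⟨h₁.down hy θW h hθ1, C.rho_mono y hy θ θW h⟩)
  have eL : ∀ y, y ∈ Lset C.r J θ l β ↔ y ∈ C.W ∧ U y ∧ T' y ∧
      ¬ (y = l ∨ C.r l y ∨ y = β ∨ C.r β y) := by
    intro y
    rw [mem_Lset, hT'']
    constructor
    · rintro ⟨a1, a2, a3⟩
      obtain ⟨b1, b2, b3⟩ := (hJ y).1 a1
      exact ⟨b1, b2, (hT' y b1).2 ⟨b3, hlt y a1 (fun h => a2 (Or.inl h))⟩,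
        (excl_iff.1 ⟨a2, a3⟩).2⟩
    · rintro ⟨b1, b2, b3, b4⟩
      rw [hT' y b1] at b3
      have : y ≠ θ := by rintro rfl; omega
      exact ⟨(hJ y).2 ⟨b1, b2, b3.1⟩, excl_iff.2 ⟨this, b4⟩⟩
  have uR : C.IsUp (fun y => C.r l y ∨ C.r β y) :=
    Or.inr ⟨l, hW l hl, β, hW β hβ, fun _ _ => Iff.rfl⟩
  have eR : ∀ y, y ∈ Rset C.r J l β ↔ y ∈ C.W ∧ (C.r l y ∨ C.r β y) ∧ T y := by
    intro y
    rw [mem_Rset, hJ]
    constructor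
    · rintro ⟨⟨a1, _, a3⟩, a4⟩
      exact ⟨a1, a4, a3⟩
    · rintro ⟨a1, a4, a3⟩
      refine ⟨⟨a1, ?_, a3⟩, a4⟩
      rcases a4 with h | h
      · exact hU.up (hW l hl) a1 h ((hJ l).1 hl).2.1
      · exact hU.up (hW β hβ) a1 h ((hJ β).1 hβ).2.1
  have c1 := card_Lset_lt (C := C) (l := l) (β := β) hθ
  have c2 := card_Rset_lt hθ hv
  exact Or.inr ⟨θ, (C.lt θ θW).le, l, (C.lt l (hW l hl)).le, β, (C.lt β (hW β hβ)).le, hv,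
    ⟨fam_of hU hB.tri (C.lt l (hW l hl)).le (C.lt β (hW β hβ)).le eL,
      h2 _ U T' θ l β κ hU hB eL g0 g1 (by omega)⟩,
    ⟨fam_of' uR hT eR, h1 _ _ T uR hT eR g2 (by omega)⟩⟩

theorem stII_succ {k : ℕ} (h1 : C.StI (k + 1)) (h2 : C.StII k) : C.StII (k + 1) := by
  classical
  intro J U T s l β κ hU hB hJ hg hG hk
  have hW : ∀ y ∈ J, y ∈ C.W := fun y hy => ((hJ y).1 hy).1
  have hTpred : ∀ y ∈ C.W, (C.r y s ∨ C.r y l ∨ C.r y β) → T y := by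
    rintro y hy (h | h | h)
    exacts [hB.Ts y hy h, hB.tri.down hy hB.lW h hB.Tl, hB.tri.down hy hB.βW h hB.Tβ]
  have hex : ∀ y ∈ C.W, T y → (y = l ∨ C.r l y ∨ y = β ∨ C.r β y) →
      ¬ (C.r y s ∨ C.r y l ∨ C.r y β) ∧ ∃ b, (b = l ∨ b = β) ∧ κ b ≤ κ y ∧ (y = b ∨ C.r b y) := by
    intro y hy hT h
    obtain ⟨b, hb, h⟩ : ∃ b, (b = l ∨ b = β) ∧ (y = b ∨ C.r b y) := by
      rcases h with h | h | h | h
      exacts [⟨l, Or.inl rfl, Or.inl h⟩, ⟨l, Or.inl rfl, Or.inr h⟩, ⟨β, Or.inr rfl, Or.inl h⟩,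
        ⟨β, Or.inr rfl, Or.inr h⟩]
    have bW : b ∈ C.W := by rcases hb with rfl | rfl; exacts [hB.lW, hB.βW]
    obtain ⟨a1, a2, a3⟩ := hB.anti b hb
    rcases h with rfl | h
    · exact ⟨fun h => h.elim a1 (fun h => h.elim a2 a3), y, hb, le_rfl, Or.inl rfl⟩
    · refine ⟨?_, b, hb, (hB.mono b bW y hy hT h).le, Or.inr h⟩
      rintro (h' | h' | h')
      exacts [a1 (C.trans h h'), a2 (C.trans h h'), a3 (C.trans h h')]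
  by_cases hF : ∃ y ∈ J, ¬ (C.r y s ∨ C.r y l ∨ C.r y β) ∧ κ β ≤ κ y
  swap
  · obtain ⟨P₁, P₂, P₃, h₁, h₂, h₃, hP, -⟩ := hB.desc β hB.βW hB.Tβ le_rfl
    refine h1 J U _ hU ⟨P₁, P₂, P₃, h₁, h₂, h₃, fun _ _ => Iff.rfl⟩ (fun y => ?_) hG hk
    constructor
    · intro hy
      obtain ⟨a1, a2, a3, _⟩ := (hJ y).1 hy
      refine ⟨a1, a2, (hP y a1).1 ?_⟩
      by_contra hc
      refine hF ⟨y, hy, fun h => hc (h.imp id (Or.imp id Or.inl)), ?_⟩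
      by_contra hlt
      exact hc (Or.inr (Or.inr (Or.inr ⟨a3, by omega⟩)))
    · rintro ⟨a1, a2, a3⟩
      rw [← hP y a1] at a3
      have hT : T y := by
        rcases a3 with h | h | h | h
        exacts [hTpred y a1 (Or.inl h), hTpred y a1 (Or.inr (Or.inl h)),
          hTpred y a1 (Or.inr (Or.inr h)), h.1]
      refine (hJ y).2 ⟨a1, a2, hT, fun h => ?_⟩
      obtain ⟨b1, b, hb, b2, _⟩ := hex y a1 hT h
      have := hB.le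
      have : κ y < κ β := (res3 a3 b1).2
      rcases hb with rfl | rfl <;> omega
  obtain ⟨θ, hθ', hmax⟩ := Finset.exists_max_image
    (J.filter (fun y => ¬ (C.r y s ∨ C.r y l ∨ C.r y β))) κ (by
      obtain ⟨y, a1, a2, _⟩ := hF
      exact ⟨y, mem_filter.2 ⟨a1, a2⟩⟩)
  obtain ⟨hθ, hθn⟩ := mem_filter.1 hθ'
  have θW := hW θ hθ
  have hβθ : κ β ≤ κ θ := by
    obtain ⟨y, a1, a2, a3⟩ := hF
    exact a3.trans (hmax y (mem_filter.2 ⟨a1, a2⟩))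
  have hs : ∀ z ∈ J, ¬ C.r θ z := fun z hz hr => by
    have a1 := hB.mono θ θW z (hW z hz) ((hJ z).1 hz).2.2.1 hr
    have := hmax z (mem_filter.2 ⟨hz, fun h => hθn
      (h.imp (C.trans hr) (Or.imp (C.trans hr) (C.trans hr)))⟩)
    omega
  obtain ⟨P₁, P₂, P₃, h₁, h₂, h₃, hP, hθ1⟩ := hB.desc θ θW ((hJ θ).1 hθ).2.2.1 hβθ
  have hin : ∀ y ∈ J, y ≠ θ → P₁ y ∨ P₂ y ∨ P₃ y := by
    intro y hy hne
    rw [← hP y (hW y hy)]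
    by_cases h : C.r y s ∨ C.r y l ∨ C.r y β
    · exact h.imp id (Or.imp id Or.inl)
    · refine Or.inr (Or.inr (Or.inr ⟨((hJ y).1 hy).2.2.1, ?_⟩))
      exact lt_of_le_of_ne (hmax y (mem_filter.2 ⟨hy, h⟩))
        (fun e => hne (hB.inj y (hW y hy) θ θW e))
  obtain ⟨l', hl, β', hβ, T', κ', hT'', hv, hB', g0, g1, g2, g3, τ, hτ, hτ'⟩ :=
    step hW hG hθ hs h₁ h₂ h₃ hin hθ1
  have eL : ∀ y, y ∈ Lset C.r J θ l' β' ↔ y ∈ C.W ∧ U y ∧ T' y ∧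
      ¬ (y = l' ∨ C.r l' y ∨ y = β' ∨ C.r β' y) := by
    intro y
    rw [mem_Lset, hT'']
    constructor
    · rintro ⟨a1, a2, a3⟩
      obtain ⟨b1, b2, -⟩ := (hJ y).1 a1
      exact ⟨b1, b2, hin y a1 (fun h => a2 (Or.inl h)), (excl_iff.1 ⟨a2, a3⟩).2⟩
    · rintro ⟨a1, a2, a3, a4⟩
      rw [← hP y a1] at a3
      have hT : T y := by
        rcases a3 with h | h | h | h
        exacts [hTpred y a1 (Or.inl h), hTpred y a1 (Or.inr (Or.inl h)),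
          hTpred y a1 (Or.inr (Or.inr h)), h.1]
      have hne : y ≠ θ := by
        rintro rfl
        rcases a3 with h | h | h | h
        exacts [hθn (Or.inl h), hθn (Or.inr (Or.inl h)), hθn (Or.inr (Or.inr h)),
          absurd h.2 (lt_irrefl _)]
      refine ⟨(hJ y).2 ⟨a1, a2, hT, fun h => ?_⟩, excl_iff.2 ⟨hne, a4⟩⟩
      obtain ⟨b1, b, hb, b2, b3⟩ := hex y a1 hT h
      have b4 : κ y < κ θ := (res3 a3 b1).2
      obtain ⟨z, z1, z2, z3⟩ := hg τ hτ θ hθ hs (fun h => hθn (Or.inl h))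
        (fun h => hθn (Or.inr (Or.inl h))) (fun h => hθn (Or.inr (Or.inr h))) b hb (by omega)
      have z4 : z ∉ Lset C.r J θ l' β' := fun h => by have := hτ' z h; omega
      have z5 : z ≠ θ := by
        rintro rfl
        rcases hb with rfl | rfl
        exacts [hθn (Or.inr (Or.inl z2)), hθn (Or.inr (Or.inr z2))]
      have z6 : C.r z y := by
        rcases b3 with rfl | h
        exacts [z2, C.trans z2 h]
      rw [mem_Lset] at z4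
      refine a4 ?_
      by_cases e1 : z = l'
      · subst e1; exact Or.inr (Or.inl z6)
      by_cases e2 : z = β'
      · subst e2; exact Or.inr (Or.inr (Or.inr z6))
      have : C.r l' z ∨ C.r β' z := by
        by_contra hc
        exact z4 ⟨z1, fun h => h.elim z5 (fun h => h.elim e1 e2), hc⟩
      rcases this with h | h
      exacts [Or.inr (Or.inl (C.trans h z6)), Or.inr (Or.inr (Or.inr (C.trans h z6)))]
  have uR : C.IsUp (fun y => C.r l' y ∨ C.r β' y) :=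
    Or.inr ⟨l', hW l' hl, β', hW β' hβ, fun _ _ => Iff.rfl⟩
  have eR : ∀ y, y ∈ Rset C.r J l' β' ↔ y ∈ C.W ∧ (C.r l' y ∨ C.r β' y) ∧ T y ∧
      ¬ (y = l ∨ C.r l y ∨ y = β ∨ C.r β y) := by
    intro y
    rw [mem_Rset, hJ]
    constructor
    · rintro ⟨⟨a1, _, a3⟩, a4⟩
      exact ⟨a1, a4, a3⟩
    · rintro ⟨a1, a4, a3⟩
      refine ⟨⟨a1, ?_, a3⟩, a4⟩
      rcases a4 with h | h
      · exact hU.up (hW l' hl) a1 h ((hJ l').1 hl).2.1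
      · exact hU.up (hW β' hβ) a1 h ((hJ β').1 hβ).2.1
  have up : ∀ y ∈ Rset C.r J l' β', ∀ z ∈ J, C.r y z → z ∈ Rset C.r J l' β' := by
    intro y hy z hz hr
    rw [mem_Rset] at hy ⊢
    exact ⟨hz, hy.2.imp (fun h => C.trans h hr) (fun h => C.trans h hr)⟩
  have gR : C.Guar (Rset C.r J l' β') s l β κ := by
    intro τ₂ hτ₂ y hy y1 y2 y3 y4 b hb hlt
    obtain ⟨τ₁, hτ₁⟩ := g3
    have sub : ∀ y ∈ Rset C.r J l' β', y ∈ J := fun y hy => (mem_Rset.1 hy).1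
    obtain ⟨σ, K, hσ, s1, s2⟩ := hτ₁.concat hτ₂ (J := J) (fun y => by
        rw [mem_sdiff]
        exact ⟨fun h => (em _).symm.imp (fun h' => ⟨h, h'⟩) id, fun h => h.elim And.left (sub y)⟩)
      (fun y hy => (mem_sdiff.1 hy).2)
      (fun y hy z hz hr => (mem_sdiff.1 hz).2 (up y hy z (mem_sdiff.1 hz).1 hr))
    obtain ⟨z, z1, z2, z3⟩ := hg σ hσ y (sub y hy) (fun z hz hr => y1 z (up y hy z hz hr) hr)
      y2 y3 y4 b hb hlt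
    have a1 := s2 y hy
    have z4 : z ∈ Rset C.r J l' β' := by
      by_contra hc
      have := s1 z (mem_sdiff.2 ⟨z1, hc⟩)
      omega
    have a2 := s2 z z4
    exact ⟨z, z4, z2, by omega⟩
  have c1 := card_Lset_lt (C := C) (l := l') (β := β') hθ
  have c2 := card_Rset_lt hθ hv
  exact Or.inr ⟨θ, (C.lt θ θW).le, l', (C.lt l' (hW l' hl)).le, β', (C.lt β' (hW β' hβ)).le, hv,
    ⟨fam_of hU hB'.tri (C.lt l' (hW l' hl)).le (C.lt β' (hW β' hβ)).le eL,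
      h2 _ U T' θ l' β' κ' hU hB' eL g0 g1 (by omega)⟩,
    ⟨fam_of uR hB.tri (C.lt l hB.lW).le (C.lt β hB.βW).le eR,
      h2 _ _ T s l β κ uR hB eR gR g2 (by omega)⟩⟩

theorem st (k : ℕ) : C.StI k ∧ C.StII k := by
  induction k with
  | zero =>
    exact ⟨fun J _ _ _ _ _ _ h => Finset.card_eq_zero.1 (by omega),
      fun J _ _ _ _ _ _ _ _ _ _ _ h => Finset.card_eq_zero.1 (by omega)⟩
  | succ k ih => exact ⟨stI_succ ih.1 ih.2, stII_succ (stI_succ ih.1 ih.2) ih.2⟩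

/-- The dynamic program decides whether the whole job set has a perfect schedule. -/
theorem good_iff (C : Ctx) (k : ℕ) (hk : C.W.card ≤ k) :
    Good C.r C.W ↔ C.Fam C.W ∧ C.Der k C.W := by
  refine ⟨fun h => ?_, fun h => h.2.good⟩
  have t : C.IsTerm (fun _ => True) := ⟨C.ν, le_rfl, C.ν, le_rfl, fun y hy => by
    simp [term, C.rho_lt y hy]⟩
  have hT : C.IsTri (fun _ => True) := ⟨_, _, _, t, t, t, by simp⟩
  have hU : C.IsUp (fun _ => True) := Or.inl (by simp)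
  exact ⟨fam_of' hU hT (by simp), (st k).1 _ _ _ hU hT (by simp) h hk⟩

end Ctx

end Vale.Agent.P324
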