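import Vale.Agent.P324.Sched

/-! Cutting a perfect schedule at the slot of a sink placed as late as possible. -/

namespace Vale.Agent.P324

open Finset

variable (r : ℕ → ℕ → Prop)

open Classical in
/-- the jobs after the cut -/
noncomputable def Rset (J : Finset ℕ) (b c : ℕ) : Finset ℕ := J.filter (fun y => r b y ∨ r c y)

open Classical in
/-- the jobs before the cut -/
noncomputable def Lset (J : Finset ℕ) (s b c : ℕ) : Finset ℕ :=
  J.filter (fun y => ¬ (y = s ∨ y = b ∨ y = c) ∧ ¬ (r b y ∨ r c y))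

/-- admissible cuts -/
def Valid (J : Finset ℕ) (s b c : ℕ) : Prop :=
  (J.filter (fun y => y = s ∨ y = b ∨ y = c)).card = 3 ∧
    ∀ y ∈ J, ¬ (r s y ∨ ((y = s ∨ y = b ∨ y = c) ∧ (r b y ∨ r c y)))

variable {r}

theorem mem_Rset {J : Finset ℕ} {b c y : ℕ} : y ∈ Rset r J b c ↔ y ∈ J ∧ (r b y ∨ r c y) := by
  simp [Rset]

theorem mem_Lset {J : Finset ℕ} {s b c y : ℕ} : y ∈ Lset r J s b c ↔
    y ∈ J ∧ ¬ (y = s ∨ y = b ∨ y = c) ∧ ¬ (r b y ∨ r c y) := by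
  simp only [Lset, mem_filter]

theorem Valid.good (ht : ∀ ⦃a b c⦄, r a b → r b c → r a c) {J : Finset ℕ} {s b c : ℕ}
    (hv : Valid r J s b c) (hL : Good r (Lset r J s b c)) (hR : Good r (Rset r J b c)) :
    Good r J := by
  classical
  obtain ⟨τ₁, h₁⟩ := hL
  obtain ⟨τ₂, h₂⟩ := hR
  set S := J.filter (fun y => y = s ∨ y = b ∨ y = c) with hS
  have h₃ : Sched r S (fun _ => 0) := by
    refine ⟨fun y _ => by simpa using hv.1, fun y hy z hz hyz => ?_⟩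
    rw [hS, mem_filter] at hy hz
    refine absurd ?_ (hv.2 z hz.1)
    rcases hy.2 with rfl | rfl | rfl
    · exact Or.inl hyz
    · exact Or.inr ⟨hz.2, Or.inl hyz⟩
    · exact Or.inr ⟨hz.2, Or.inr hyz⟩
  obtain ⟨τ₄, _, h₄, -⟩ := h₁.concat h₃ (J := Lset r J s b c ∪ S) (fun y => mem_union)
    (fun y hy hy' => (mem_Lset.1 hy).2.1 (mem_filter.1 hy').2) (by
      intro y hy z hz hyz
      rw [hS, mem_filter] at hy
      rw [mem_Lset] at hz
      rcases hy.2 with rfl | rfl | rfl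
      · exact hv.2 z hz.1 (Or.inl hyz)
      · exact hz.2.2 (Or.inl hyz)
      · exact hz.2.2 (Or.inr hyz))
  have hnot : ∀ y ∈ Lset r J s b c ∪ S, ¬ (r b y ∨ r c y) := by
    intro y hy
    rcases mem_union.1 hy with h | h
    · exact (mem_Lset.1 h).2.2
    · rw [hS, mem_filter] at h
      exact fun h' => hv.2 y h.1 (Or.inr ⟨h.2, h'⟩)
  obtain ⟨τ₅, _, h₅, -⟩ := h₄.concat h₂ (J := J) (by
      intro y
      simp only [mem_union, mem_Lset, mem_Rset, hS, mem_filter]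
      tauto)
    (fun y hy hy' => hnot y hy (mem_Rset.1 hy').2) (by
      intro y hy z hz hyz
      refine hnot z hz ?_
      rcases (mem_Rset.1 hy).2 with h | h
      · exact Or.inl (ht h hyz)
      · exact Or.inr (ht h hyz))
  exact ⟨τ₅, h₅⟩

theorem exists_cut (ht : ∀ ⦃a b c⦄, r a b → r b c → r a c) {J : Finset ℕ} (hG : Good r J)
    {θ : ℕ} (hθ : θ ∈ J) (hs : ∀ z ∈ J, ¬ r θ z) (k1 : ℕ → ℕ) :
    ∃ l ∈ J, l ≠ θ ∧ ∀ k2 : ℕ → ℕ, ∃ β ∈ J, β ≠ θ ∧ β ≠ l ∧ k1 β ≤ k1 l ∧ Valid r J θ l β ∧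
      Good r (Lset r J θ l β) ∧ Good r (Rset r J l β) ∧ Good r (J \ Rset r J l β) ∧
      (∃ τ, Sched r J τ ∧ ∀ z ∈ Lset r J θ l β, τ z < τ θ) ∧
      ∀ τ', Sched r (Lset r J θ l β) τ' → ∀ y ∈ Lset r J θ l β,
        (∀ z ∈ Lset r J θ l β, ¬ r y z) → ¬ r y θ → ¬ r y l → ¬ r y β →
        ∀ b, ((b = l ∨ b = β) ∧ k1 l < k1 y ∨ b = β ∧ k2 β < k2 y) →
          ∃ z ∈ Lset r J θ l β, r z b ∧ τ' y ≤ τ' z := by
  classical
  obtain ⟨τ₀, h₀⟩ := hG.exists_late θ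
  obtain ⟨l, hl, hlmax⟩ := Finset.exists_max_image
    (J.filter (fun x => x ≠ θ ∧ ∃ τ, Late r J θ τ ∧ τ x = τ θ)) k1 (by
      obtain ⟨c, h1, h2, _, h4⟩ := h₀.1.exists_mate hθ θ
      exact ⟨c, mem_filter.2 ⟨h1, h2, τ₀, h₀, h4⟩⟩)
  obtain ⟨hlJ, hlθ, τ₁, h₁, e₁⟩ := mem_filter.1 hl
  refine ⟨l, hlJ, hlθ, fun k2 => ?_⟩
  obtain ⟨β, hβ, hβmax⟩ := Finset.exists_max_image
    (J.filter (fun x => x ≠ θ ∧ x ≠ l ∧ ∃ τ, Late r J θ τ ∧ τ l = τ θ ∧ τ x = τ θ)) k2 (by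
      obtain ⟨c, h1, h2, h3, h4⟩ := h₁.1.exists_mate hθ l
      exact ⟨c, mem_filter.2 ⟨h1, h2, h3, τ₁, h₁, e₁, h4⟩⟩)
  obtain ⟨hβJ, hβθ, hβl, τ, h, el, eβ⟩ := mem_filter.1 hβ
  have slot := h.1.slot hθ hlJ hβJ hlθ hβθ hβl el eβ
  have hR : ∀ y, y ∈ Rset r J l β ↔ y ∈ J ∧ τ θ < τ y := by
    intro y
    rw [mem_Rset]
    refine and_congr_right (fun hy => ⟨?_, fun hlt => ?_⟩)
    · rintro (h' | h')
      · have := h.1.2 l hlJ y hy h'; omega
      · have := h.1.2 β hβJ y hy h'; omega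
    · obtain ⟨b, b1, b2, b3, b4⟩ := h.after ht hθ hs y hy hlt
      rcases (slot b b1).1 b3 with rfl | rfl | rfl
      · exact absurd rfl b2
      · exact Or.inl b4
      · exact Or.inr b4
  have hL : ∀ y, y ∈ Lset r J θ l β ↔ y ∈ J ∧ τ y < τ θ := by
    intro y
    rw [mem_Lset]
    refine and_congr_right (fun hy => ?_)
    have a1 := hR y
    rw [mem_Rset] at a1
    simp only [hy, true_and] at a1
    rw [← slot y hy, a1]
    omega
  refine ⟨β, hβJ, hβθ, hβl, hlmax β (mem_filter.2 ⟨hβJ, hβθ, τ, h, eβ⟩), ⟨?_, ?_⟩, ⟨τ, ?_⟩,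
    ⟨τ, ?_⟩, ⟨τ, ?_⟩, ⟨τ, h.1, fun z hz => ((hL z).1 hz).2⟩, ?_⟩
  · rw [← h.1.1 θ hθ]
    congr 1
    exact Finset.filter_congr (fun y hy => (slot y hy).symm)
  · rintro y hy (h' | ⟨h1, h2⟩)
    · exact hs y hy h'
    · have := ((hR y).1 (mem_Rset.2 ⟨hy, h2⟩)).2
      have := (slot y hy).2 h1
      omega
  · refine h.1.restrict (fun y hy => ((hL y).1 hy).1) (fun y hy z hz e => ?_)
    rw [hL] at hy ⊢
    exact ⟨hz, by omega⟩
  · refine h.1.restrict (fun y hy => ((hR y).1 hy).1) (fun y hy z hz e => ?_)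
    rw [hR] at hy ⊢
    exact ⟨hz, by omega⟩
  · refine h.1.restrict Finset.sdiff_subset (fun y hy z hz e => ?_)
    rw [mem_sdiff, hR] at hy ⊢
    exact ⟨hz, fun h' => hy.2 ⟨hy.1, by omega⟩⟩
  intro τ' h' y hy y1 y2 y3 y4 b hb
  by_contra hc
  have hC : Sched r (J.filter (fun z => τ θ ≤ τ z)) τ :=
    h.1.restrict (Finset.filter_subset _ _) (fun y hy z hz e => by
      rw [mem_filter] at hy ⊢
      exact ⟨hz, by omega⟩)
  obtain ⟨σ, K, hσ, s1, s2⟩ := h'.concat hC (J := J) (by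
      intro y
      rw [hL, mem_filter]
      by_cases hy : y ∈ J <;> simp [hy]
      omega)
    (fun y hy hy' => by
      have := ((hL y).1 hy).2
      have := (mem_filter.1 hy').2
      omega) (by
      intro y hy z hz hyz
      rw [mem_filter] at hy
      rw [hL] at hz
      have := h.1.2 y hy.1 z hz.1 hyz
      omega)
  have s3 : ∀ z ∈ J, τ θ ≤ τ z → σ z = K + τ z := fun z hz hle => s2 z (mem_filter.2 ⟨hz, hle⟩)
  have s4 : ∀ z ∈ J, τ z < τ θ → σ z = τ' z ∧ σ z < K := fun z hz hlt => s1 z ((hL z).2 ⟨hz, hlt⟩)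
  obtain ⟨hyJ, hyθ⟩ := (hL y).1 hy
  have hb' : b = l ∨ b = β := by tauto
  have hbJ : b ∈ J := by rcases hb' with rfl | rfl <;> assumption
  have hbθ : b ≠ θ := by rcases hb' with rfl | rfl <;> assumption
  have eb : τ b = τ θ := by rcases hb' with rfl | rfl <;> assumption
  have t1 := s3 θ hθ le_rfl
  have t2 := s3 b hbJ eb.ge
  have t3 := s4 y hyJ hyθ
  have hσ' := hσ.swap hyJ hbJ (by omega) (by
      intro z hz hyz
      rcases lt_trichotomy (τ z) (τ θ) with c | c | c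
      · exact absurd hyz (y1 z ((hL z).2 ⟨hz, c⟩))
      · rcases (slot z hz).1 c with rfl | rfl | rfl <;> contradiction
      · have := s3 z hz c.le
        omega) (by
      intro z hz hzb
      have c := h.1.2 z hz b hbJ hzb
      have := s4 z hz (by omega)
      by_contra hle
      exact hc ⟨z, (hL z).2 ⟨hz, by omega⟩, hzb, by omega⟩)
  have hne : θ ≠ y := by rintro rfl; omega
  have eθ : Equiv.swap y b θ = θ := Equiv.swap_apply_of_ne_of_ne hne hbθ.symm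
  have hlate : Late r J θ (fun z => σ (Equiv.swap y b z)) := by
    refine ⟨hσ', fun τ'' h'' => le_trans (le_of_eq ?_) (h.2 τ'' h'')⟩
    unfold aft
    simp only [eθ]
    rw [card_swap J hyJ hbJ (fun z => σ θ < σ z)]
    congr 1
    refine Finset.filter_congr (fun z hz => ?_)
    rcases lt_or_ge (τ z) (τ θ) with c | c
    · have := s4 z hz c; omega
    · have := s3 z hz c; omega
  have ey : σ (Equiv.swap y b y) = σ (Equiv.swap y b θ) := by
    rw [eθ, Equiv.swap_apply_left]; omega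
  rcases hb with ⟨_, hk⟩ | ⟨rfl, hk⟩
  · have := hlmax y (mem_filter.2 ⟨hyJ, hne.symm, _, hlate, ey⟩)
    omega
  · have hyl : y ≠ l := by rintro rfl; omega
    have := hβmax y (mem_filter.2 ⟨hyJ, hne.symm, hyl, _, hlate, by
      have := s3 l hlJ el.ge
      simp only [eθ, Equiv.swap_apply_of_ne_of_ne hyl.symm hβl.symm]
      omega, ey⟩)
    omega

end Vale.Agent.P324
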