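import Mathlib

namespace Vale.Agent.P324

/-- A finite directed acyclic graph on the jobs `Fin n`, `n ≥ 1`, given by its adjacency matrix. -/
structure Dag where
  n : ℕ
  adj : Fin n → Fin n → Bool
  n_pos : 1 ≤ n
  acyclic : ∀ v, ¬ Relation.TransGen (fun a b => adj a b = true) v v

namespace Dag

/-- `τ` is a schedule of length `T` on three machines. -/
def IsSchedule (G : Dag) (T : ℕ) (τ : Fin G.n → ℕ) : Prop :=
  (∀ v, 1 ≤ τ v ∧ τ v ≤ T) ∧
  (∀ t, (Finset.univ.filter (fun v => τ v = t)).card ≤ 3) ∧
  ∀ u v, G.adj u v = true → τ u < τ v

/-- The graph as a list of naturals: `n`, then the adjacency matrix row by row. -/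
def code (G : Dag) : List ℕ :=
  G.n :: (List.ofFn fun u => List.ofFn fun v => if G.adj u v then 1 else 0).flatten

open Classical in
/-- The answer to the decision problem: `1` if a schedule of length `T` exists, `0` otherwise. -/
noncomputable def answer (G : Dag) (T : ℕ) : ℕ := if ∃ τ, G.IsSchedule T τ then 1 else 0

end Dag

/-- Self-delimiting binary code of a natural number: each binary digit `b` (least significant
first) is written `1 b`, and a final `0` ends the number. -/
def encNat (a : ℕ) : List Bool := a.bits.flatMap (fun b => [true, b]) ++ [false]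

/-- Binary code of a list of naturals. -/
def encList (l : List ℕ) : List Bool := l.flatMap encNat

end Vale.Agent.P324
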