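import Vale.Agent.P324.Cut

/-! The polynomial family of job sets and the completeness of the dynamic program. -/

namespace Vale.Agent.P324

open Finset

/-- The data of an instance: jobs are numbers below `ν`, and `ν` itself means no job. -/
structure Ctx where
  ν : ℕ
  W : Finset ℕ
  r : ℕ → ℕ → Prop
  ρ : ℕ → ℕ
  trans : ∀ ⦃a b c⦄, r a b → r b c → r a c
  lt : ∀ y ∈ W, y < ν
  rho_lt : ∀ y ∈ W, ρ y < ν
  rho_inj : ∀ y ∈ W, ∀ z ∈ W, ρ y = ρ z → y = z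
  rho_mono : ∀ y ∈ W, ∀ z ∈ W, r y z → ρ y < ρ z
  nu : ∀ y, ¬ r ν y

namespace Ctx

variable (C : Ctx)

/-- a term -/
def term (u q y : ℕ) : Prop := (u = C.ν ∨ C.r y u) ∧ C.ρ y < q

/-- membership in the set described by ten numbers -/
def mem (d : Fin 10 → ℕ) (y : ℕ) : Prop :=
  y ∈ C.W ∧ (d 0 = C.ν ∨ C.r (d 0) y ∨ C.r (d 1) y) ∧
    (C.term (d 2) (d 3) y ∨ C.term (d 4) (d 5) y ∨ C.term (d 6) (d 7) y) ∧
    ¬ (y = d 8 ∨ C.r (d 8) y ∨ y = d 9 ∨ C.r (d 9) y)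

/-- the family -/
def Fam (J : Finset ℕ) : Prop := ∃ d : Fin 10 → ℕ, (∀ i, d i ≤ C.ν) ∧ ∀ y, y ∈ J ↔ C.mem d y

/-- derivability in `k` rounds -/
def Der : ℕ → Finset ℕ → Prop
  | 0, J => J = ∅
  | k + 1, J => J = ∅ ∨ ∃ s ≤ C.ν, ∃ b ≤ C.ν, ∃ c ≤ C.ν, Valid C.r J s b c ∧
      (C.Fam (Lset C.r J s b c) ∧ Der k (Lset C.r J s b c)) ∧
      (C.Fam (Rset C.r J b c) ∧ Der k (Rset C.r J b c))

theorem der_empty (k : ℕ) : C.Der k ∅ := by cases k <;> simp [Der]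

theorem Der.good {C : Ctx} {k : ℕ} {J : Finset ℕ} (h : C.Der k J) : Good C.r J := by
  have h0 : Good C.r ∅ := ⟨fun _ => 0, by simp, by simp⟩
  induction k generalizing J with
  | zero => rw [show J = ∅ from h]; exact h0
  | succ k ih =>
    rcases h with rfl | ⟨s, _, b, _, c, _, hv, ⟨_, hL⟩, _, hR⟩
    · exact h0
    · exact hv.good C.trans (ih hL) (ih hR)

def IsTerm (P : ℕ → Prop) : Prop := ∃ u ≤ C.ν, ∃ q ≤ C.ν, ∀ y ∈ C.W, P y ↔ C.term u q y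

def IsUp (U : ℕ → Prop) : Prop :=
  (∀ y ∈ C.W, U y) ∨ ∃ a ∈ C.W, ∃ a' ∈ C.W, ∀ y ∈ C.W, U y ↔ C.r a y ∨ C.r a' y

def IsTri (T : ℕ → Prop) : Prop :=
  ∃ P₁ P₂ P₃, C.IsTerm P₁ ∧ C.IsTerm P₂ ∧ C.IsTerm P₃ ∧ ∀ y ∈ C.W, T y ↔ P₁ y ∨ P₂ y ∨ P₃ y

variable {C}

theorem IsTerm.down {P : ℕ → Prop} (h : C.IsTerm P) {y z : ℕ} (hy : y ∈ C.W) (hz : z ∈ C.W)
    (hr : C.r y z) (hP : P z) : P y := by
  obtain ⟨u, _, q, _, h⟩ := h
  rw [h y hy]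
  rw [h z hz] at hP
  have := C.rho_mono y hy z hz hr
  exact ⟨hP.1.imp id (C.trans hr), by have := hP.2; omega⟩

theorem IsTerm.low {P : ℕ → Prop} (h : C.IsTerm P) (θ : ℕ) :
    C.IsTerm (fun y => P y ∧ C.ρ y < C.ρ θ) := by
  obtain ⟨u, hu, q, hq, h⟩ := h
  refine ⟨u, hu, min q (C.ρ θ), le_trans (min_le_left _ _) hq, fun y hy => ?_⟩
  show P y ∧ _ ↔ _
  rw [h y hy, term, term, lt_min_iff, and_assoc]

theorem isTerm_pred {u : ℕ} (hu : u ∈ C.W) : C.IsTerm (fun y => C.r y u) := by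
  refine ⟨u, (C.lt u hu).le, C.ν, le_rfl, fun y hy => ?_⟩
  have := C.lt u hu
  simp [term, C.rho_lt y hy, this.ne]

theorem IsTri.down {T : ℕ → Prop} (h : C.IsTri T) {y z : ℕ} (hy : y ∈ C.W) (hz : z ∈ C.W)
    (hr : C.r y z) (hP : T z) : T y := by
  obtain ⟨P₁, P₂, P₃, h1, h2, h3, h⟩ := h
  rw [h y hy]
  rw [h z hz] at hP
  exact hP.imp (h1.down hy hz hr) (Or.imp (h2.down hy hz hr) (h3.down hy hz hr))

theorem IsUp.up {U : ℕ → Prop} (h : C.IsUp U) {y z : ℕ} (hy : y ∈ C.W) (hz : z ∈ C.W)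
    (hr : C.r y z) (hU : U y) : U z := by
  rcases h with h | ⟨a, _, a', _, h⟩
  · exact h z hz
  · rw [h z hz]
    rw [h y hy] at hU
    exact hU.imp (fun h => C.trans h hr) (fun h => C.trans h hr)

theorem fam_of {J : Finset ℕ} {U T : ℕ → Prop} (hU : C.IsUp U) (hT : C.IsTri T) {b c : ℕ}
    (hb : b ≤ C.ν) (hc : c ≤ C.ν) (hJ : ∀ y, y ∈ J ↔ y ∈ C.W ∧ U y ∧ T y ∧
      ¬ (y = b ∨ C.r b y ∨ y = c ∨ C.r c y)) : C.Fam J := by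
  obtain ⟨P₁, P₂, P₃, ⟨u1, a1, q1, b1, h1⟩, ⟨u2, a2, q2, b2, h2⟩, ⟨u3, a3, q3, b3, h3⟩, h⟩ := hT
  obtain ⟨a, ha, a', ha', hU'⟩ : ∃ a ≤ C.ν, ∃ a' ≤ C.ν, ∀ y ∈ C.W,
      U y ↔ a = C.ν ∨ C.r a y ∨ C.r a' y := by
    rcases hU with h | ⟨a, ha, a', ha', h⟩
    · exact ⟨C.ν, le_rfl, C.ν, le_rfl, fun y hy => by simp [h y hy]⟩
    · exact ⟨a, (C.lt a ha).le, a', (C.lt a' ha').le, fun y hy => by
        simp [h y hy, (C.lt a ha).ne]⟩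
  refine ⟨![a, a', u1, q1, u2, q2, u3, q3, b, c], fun i => by fin_cases i <;> assumption,
    fun y => ?_⟩
  rw [hJ]
  refine and_congr_right (fun hy => ?_)
  rw [hU' y hy, h y hy, h1 y hy, h2 y hy, h3 y hy]
  rfl

theorem fam_of' {J : Finset ℕ} {U T : ℕ → Prop} (hU : C.IsUp U) (hT : C.IsTri T)
    (hJ : ∀ y, y ∈ J ↔ y ∈ C.W ∧ U y ∧ T y) : C.Fam J := by
  refine fam_of hU hT le_rfl le_rfl (fun y => ?_)
  rw [hJ]
  refine and_congr_right (fun hy => ?_)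
  simp [(C.lt y hy).ne, C.nu y]

variable (C) in
/-- the data attached to the right boundary `s, l, β` of a piece -/
structure Bdry (T : ℕ → Prop) (s l β : ℕ) (κ : ℕ → ℕ) : Prop where
  tri : C.IsTri T
  lW : l ∈ C.W
  βW : β ∈ C.W
  Tl : T l
  Tβ : T β
  Ts : ∀ y ∈ C.W, C.r y s → T y
  anti : ∀ b, b = l ∨ b = β → ¬ C.r b s ∧ ¬ C.r b l ∧ ¬ C.r b β
  inj : ∀ y ∈ C.W, ∀ z ∈ C.W, κ y = κ z → y = z
  mono : ∀ y ∈ C.W, ∀ z ∈ C.W, T z → C.r y z → κ y < κ z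
  le : κ β ≤ κ l
  desc : ∀ θ ∈ C.W, T θ → κ β ≤ κ θ → ∃ P₁ P₂ P₃, C.IsTerm P₁ ∧ C.IsTerm P₂ ∧ C.IsTerm P₃ ∧
    (∀ y ∈ C.W, (C.r y s ∨ C.r y l ∨ C.r y β ∨ (T y ∧ κ y < κ θ)) ↔ P₁ y ∨ P₂ y ∨ P₃ y) ∧
    ∀ y ∈ C.W, C.r y θ → P₁ y

section keys

open Classical in
/-- first order -/
noncomputable def kone (C : Ctx) (P₁ : ℕ → Prop) (y : ℕ) : ℕ :=
  if P₁ y then C.ρ y else C.ν + C.ρ y

open Classical in
/-- second order -/
noncomputable def ktwo (C : Ctx) (P₁ P₂ : ℕ → Prop) (y : ℕ) : ℕ :=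
  if P₁ y then C.ρ y else if P₂ y then C.ν + C.ρ y else 2 * C.ν + C.ρ y

/-- combined order -/
noncomputable def kap (C : Ctx) (P₁ P₂ : ℕ → Prop) (l y : ℕ) : ℕ :=
  if C.kone P₁ l ≤ C.kone P₁ y then 3 * C.ν + C.kone P₁ y else C.ktwo P₁ P₂ y

variable {P₁ P₂ : ℕ → Prop} {l y z θ : ℕ}

theorem kap_mono (h₁ : C.IsTerm P₁) (h₂ : C.IsTerm P₂) (hy : y ∈ C.W) (hz : z ∈ C.W)
    (hr : C.r y z) : C.kap P₁ P₂ l y < C.kap P₁ P₂ l z := by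
  have a1 := C.rho_mono y hy z hz hr
  have a2 := C.rho_lt y hy
  have a3 := C.rho_lt z hz
  have a4 := h₁.down hy hz hr
  have a5 := h₂.down hy hz hr
  unfold kap
  generalize C.kone P₁ l = x
  unfold kone ktwo
  by_cases c1 : P₁ z
  · simp only [c1, a4 c1, if_true]
    split_ifs <;> omega
  · by_cases c2 : P₂ z
    · simp only [c1, c2, a5 c2, if_true, if_false]
      split_ifs <;> omega
    · simp only [c1, c2, if_false]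
      split_ifs <;> omega

theorem kap_inj (hy : y ∈ C.W) (hz : z ∈ C.W) (e : C.kap P₁ P₂ l y = C.kap P₁ P₂ l z) :
    y = z := by
  have a2 := C.rho_lt y hy
  have a3 := C.rho_lt z hz
  refine C.rho_inj y hy z hz ?_
  unfold kap at e
  generalize C.kone P₁ l = x at e
  unfold kone ktwo at e
  split_ifs at e <;> omega

theorem kap_le (hy : y ∈ C.W) (h : C.kone P₁ y ≤ C.kone P₁ l) :
    C.kap P₁ P₂ l y ≤ C.kap P₁ P₂ l l := by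
  have a2 := C.rho_lt y hy
  unfold kap
  rw [if_pos le_rfl]
  split_ifs
  · omega
  · unfold ktwo
    split_ifs <;> omega

theorem kap_lt1 (hy : y ∈ C.W) (hθ : θ ∈ C.W) (c1 : P₁ θ) :
    C.kap P₁ P₂ l y < C.kap P₁ P₂ l θ ↔ P₁ y ∧ C.ρ y < C.ρ θ := by
  have a2 := C.rho_lt y hy
  have a3 := C.rho_lt θ hθ
  unfold kap
  generalize C.kone P₁ l = x
  unfold kone ktwo
  by_cases c : P₁ y
  · simp only [c, c1, if_true, true_and]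
    split_ifs <;> omega
  · simp only [c, c1, if_true, if_false, false_and, iff_false]
    split_ifs <;> omega

theorem kap_lt2 (hy : y ∈ C.W) (c1 : ¬ P₁ θ) (c0 : C.kone P₁ l ≤ C.kone P₁ θ) :
    C.kap P₁ P₂ l y < C.kap P₁ P₂ l θ ↔ P₁ y ∨ C.ρ y < C.ρ θ := by
  have a2 := C.rho_lt y hy
  unfold kap
  rw [if_pos c0]
  generalize C.kone P₁ l = x at c0
  unfold kone ktwo at *
  by_cases c : P₁ y
  · simp only [c, c1, if_true, if_false, true_or, iff_true]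
    split_ifs <;> omega
  · simp only [c, c1, if_false, false_or] at c0 ⊢
    split_ifs <;> omega

theorem kap_lt3 (hy : y ∈ C.W) (hθ : θ ∈ C.W) (c1 : ¬ P₁ θ) (c2 : P₂ θ) (cl : ¬ P₁ l)
    (c0 : C.ρ θ < C.ρ l) :
    C.kap P₁ P₂ l y < C.kap P₁ P₂ l θ ↔ P₁ y ∨ (P₂ y ∧ C.ρ y < C.ρ θ) := by
  have a2 := C.rho_lt y hy
  have a3 := C.rho_lt θ hθ
  unfold kap kone ktwo
  by_cases c : P₁ y <;> by_cases c' : P₂ y <;> simp only [c, c', c1, c2, cl, if_true, if_false,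
    true_or, false_or, iff_true, true_and, false_and, iff_false] <;> split_ifs <;> omega

theorem kap_lt4 (hy : y ∈ C.W) (hθ : θ ∈ C.W) (c1 : ¬ P₁ θ) (c2 : ¬ P₂ θ) (cl : ¬ P₁ l)
    (c0 : C.ρ θ < C.ρ l) :
    C.kap P₁ P₂ l y < C.kap P₁ P₂ l θ ↔ P₁ y ∨ (P₂ y ∧ C.ρ y < C.ρ l) ∨ C.ρ y < C.ρ θ := by
  have a2 := C.rho_lt y hy
  have a3 := C.rho_lt θ hθ
  unfold kap kone ktwo
  by_cases c : P₁ y <;> by_cases c' : P₂ y <;> simp only [c, c', c1, c2, cl, if_true, if_false,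
    true_or, false_or, iff_true, true_and, false_and] <;> split_ifs <;> omega

theorem kap_impr {β b : ℕ} (hy : y ∈ C.W) (lW : l ∈ C.W) (βW : β ∈ C.W) (hyl : y ≠ l)
    (hβl : β ≠ l) (hle : C.kone P₁ β ≤ C.kone P₁ l) (hb : b = l ∨ b = β)
    (hlt : C.kap P₁ P₂ l b < C.kap P₁ P₂ l y) :
    (b = l ∨ b = β) ∧ C.kone P₁ l < C.kone P₁ y ∨ b = β ∧ C.ktwo P₁ P₂ β < C.ktwo P₁ P₂ y := by
  have a1 := C.rho_lt l lW
  have a2 := C.rho_lt y hy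
  have a4 := C.rho_lt β βW
  have a3 : C.ρ y ≠ C.ρ l := fun h => hyl (C.rho_inj y hy l lW h)
  have a5 : C.ρ β ≠ C.ρ l := fun h => hβl (C.rho_inj β βW l lW h)
  have b1 : C.kone P₁ y ≠ C.kone P₁ l := by unfold kone; split_ifs <;> omega
  have b2 : C.kone P₁ β ≠ C.kone P₁ l := by unfold kone; split_ifs <;> omega
  have b3 : C.ktwo P₁ P₂ y < 3 * C.ν := by unfold ktwo; split_ifs <;> omega
  by_cases c : C.kone P₁ l < C.kone P₁ y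
  · exact Or.inl ⟨hb, c⟩
  right
  unfold kap at hlt
  rcases hb with rfl | rfl
  · split_ifs at hlt <;> omega
  · refine ⟨rfl, ?_⟩
    split_ifs at hlt <;> omega

end keys

theorem bdry {P₁ P₂ P₃ : ℕ → Prop} (h₁ : C.IsTerm P₁) (h₂ : C.IsTerm P₂)
    (h₃ : C.IsTerm P₃) {s l β : ℕ} (sW : s ∈ C.W) (hs : ∀ y ∈ C.W, C.r y s → P₁ y) (lW : l ∈ C.W)
    (hl : P₁ l ∨ P₂ l) (βW : β ∈ C.W) (Tβ : P₁ β ∨ P₂ β ∨ P₃ β)
    (hle : C.kone P₁ β ≤ C.kone P₁ l)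
    (anti : ∀ b, b = l ∨ b = β → ¬ C.r b s ∧ ¬ C.r b l ∧ ¬ C.r b β) :
    C.Bdry (fun y => P₁ y ∨ P₂ y ∨ P₃ y) s l β (C.kap P₁ P₂ l) := by
  refine ⟨⟨P₁, P₂, P₃, h₁, h₂, h₃, fun _ _ => Iff.rfl⟩, lW, βW, hl.imp id Or.inl, Tβ,
    fun y hy h => Or.inl (hs y hy h), anti, fun y hy z hz => kap_inj hy hz,
    fun y hy z hz _ => kap_mono h₁ h₂ hy hz, kap_le βW hle, ?_⟩
  intro θ θW Tθ hβθ
  have hβ : ∀ y ∈ C.W, C.r y β → C.kap P₁ P₂ l y < C.kap P₁ P₂ l θ ∧ (P₁ y ∨ P₂ y ∨ P₃ y) :=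
    fun y hy h => ⟨lt_of_lt_of_le (kap_mono h₁ h₂ hy βW h) hβθ,
      Tβ.imp (h₁.down hy βW h) (Or.imp (h₂.down hy βW h) (h₃.down hy βW h))⟩
  have hl1 : ∀ y ∈ C.W, C.r y l → (P₁ y ∨ P₂ y ∧ C.ρ y < C.ρ l) := fun y hy h =>
    hl.imp (h₁.down hy lW h) (fun h' => ⟨h₂.down hy lW h h', C.rho_mono y hy l lW h⟩)
  have hθ : ∀ y ∈ C.W, C.r y θ → C.ρ y < C.ρ θ := fun y hy h => C.rho_mono y hy θ θW h
  by_cases c1 : P₁ θ
  · refine ⟨_, _, _, h₁.low θ, isTerm_pred sW, isTerm_pred lW, fun y hy => ?_,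
      fun y hy h => ⟨h₁.down hy θW h c1, hθ y hy h⟩⟩
    have a1 := hβ y hy
    rw [kap_lt1 hy θW c1] at a1 ⊢
    constructor
    · rintro (h | h | h | h)
      exacts [Or.inr (Or.inl h), Or.inr (Or.inr h), Or.inl (a1 h).1, Or.inl h.2]
    · rintro (h | h | h)
      exacts [Or.inr (Or.inr (Or.inr ⟨Or.inl h.1, h⟩)), Or.inl h, Or.inr (Or.inl h)]
  by_cases c0 : C.kone P₁ l ≤ C.kone P₁ θ
  · have key : ∀ y ∈ C.W, (C.r y s ∨ C.r y l ∨ C.r y β ∨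
        ((P₁ y ∨ P₂ y ∨ P₃ y) ∧ C.kap P₁ P₂ l y < C.kap P₁ P₂ l θ)) ↔
        P₁ y ∨ (P₂ y ∧ C.ρ y < C.ρ θ) ∨ (P₃ y ∧ C.ρ y < C.ρ θ) := by
      intro y hy
      have a3 := hβ y hy
      have a5 : C.r y l → P₁ y ∨ (P₂ y ∧ C.ρ y < C.ρ θ) := by
        intro h
        by_cases c : P₁ l
        · exact Or.inl (h₁.down hy lW h c)
        · refine (hl1 y hy h).imp id (fun h' => ⟨h'.1, ?_⟩)
          simp only [kone, c1, c, if_false] at c0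
          omega
      rw [kap_lt2 hy c1 c0] at a3 ⊢
      have a6 : (P₁ y ∨ P₂ y ∨ P₃ y) → (P₁ y ∨ C.ρ y < C.ρ θ) →
          P₁ y ∨ (P₂ y ∧ C.ρ y < C.ρ θ) ∨ (P₃ y ∧ C.ρ y < C.ρ θ) := by
        rintro (h | h | h) (h' | h')
        exacts [Or.inl h, Or.inl h, Or.inl h', Or.inr (Or.inl ⟨h, h'⟩), Or.inl h',
          Or.inr (Or.inr ⟨h, h'⟩)]
      constructor
      · rintro (h | h | h | h)
        exacts [Or.inl (hs y hy h), (a5 h).imp id Or.inl, a6 (a3 h).2 (a3 h).1, a6 h.1 h.2]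
      · rintro (h | h | h)
        exacts [Or.inr (Or.inr (Or.inr ⟨Or.inl h, Or.inl h⟩)),
          Or.inr (Or.inr (Or.inr ⟨Or.inr (Or.inl h.1), Or.inr h.2⟩)),
          Or.inr (Or.inr (Or.inr ⟨Or.inr (Or.inr h.1), Or.inr h.2⟩))]
    by_cases c2 : P₂ θ
    · refine ⟨_, _, _, h₂.low θ, h₁, h₃.low θ, fun y hy => ?_,
        fun y hy h => ⟨h₂.down hy θW h c2, hθ y hy h⟩⟩
      rw [key y hy]; exact or_left_comm
    · refine ⟨_, _, _, h₃.low θ, h₁, h₂.low θ, fun y hy => ?_,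
        fun y hy h => ⟨h₃.down hy θW h ((Tθ.resolve_left c1).resolve_left c2), hθ y hy h⟩⟩
      rw [key y hy]; exact or_rotate.symm
  have hρθ := C.rho_lt θ θW
  have hρl := C.rho_lt l lW
  have cl : ¬ P₁ l := by
    intro c
    simp only [kone, c, c1, if_true, if_false] at c0
    omega
  have hθl : C.ρ θ < C.ρ l := by
    simp only [kone, cl, c1, if_false] at c0
    omega
  by_cases c2 : P₂ θ
  · refine ⟨_, _, _, h₂.low θ, h₁, isTerm_pred lW, fun y hy => ?_,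
      fun y hy h => ⟨h₂.down hy θW h c2, hθ y hy h⟩⟩
    have a3 := hβ y hy
    rw [kap_lt3 hy θW c1 c2 cl hθl] at a3 ⊢
    constructor
    · rintro (h | h | h | h)
      exacts [Or.inr (Or.inl (hs y hy h)), Or.inr (Or.inr h), (a3 h).1.symm.imp id Or.inl,
        h.2.symm.imp id Or.inl]
    · rintro (h | h | h)
      exacts [Or.inr (Or.inr (Or.inr ⟨Or.inr (Or.inl h.1), Or.inr h⟩)),
        Or.inr (Or.inr (Or.inr ⟨Or.inl h, Or.inl h⟩)), Or.inr (Or.inl h)]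
  · refine ⟨_, _, _, h₃.low θ, h₁, h₂.low l, fun y hy => ?_,
      fun y hy h => ⟨h₃.down hy θW h ((Tθ.resolve_left c1).resolve_left c2), hθ y hy h⟩⟩
    have a3 := hβ y hy
    rw [kap_lt4 hy θW c1 c2 cl hθl] at a3 ⊢
    have a6 : (P₁ y ∨ P₂ y ∨ P₃ y) → (P₁ y ∨ (P₂ y ∧ C.ρ y < C.ρ l) ∨ C.ρ y < C.ρ θ) →
        (P₃ y ∧ C.ρ y < C.ρ θ) ∨ P₁ y ∨ (P₂ y ∧ C.ρ y < C.ρ l) := by
      rintro h (h' | h' | h')
      · exact Or.inr (Or.inl h')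
      · exact Or.inr (Or.inr h')
      · rcases h with h | h | h
        exacts [Or.inr (Or.inl h), Or.inr (Or.inr ⟨h, by omega⟩), Or.inl ⟨h, h'⟩]
    constructor
    · rintro (h | h | h | h)
      exacts [Or.inr (Or.inl (hs y hy h)), Or.inr (hl1 y hy h), a6 (a3 h).2 (a3 h).1, a6 h.1 h.2]
    · rintro (h | h | h)
      exacts [Or.inr (Or.inr (Or.inr ⟨Or.inr (Or.inr h.1), Or.inr (Or.inr h.2)⟩)),
        Or.inr (Or.inr (Or.inr ⟨Or.inl h, Or.inl h⟩)),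
        Or.inr (Or.inr (Or.inr ⟨Or.inr (Or.inl h.1), Or.inr (Or.inl h)⟩))]

end Ctx

end Vale.Agent.P324
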