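import Vale.Agent.P324.Prep

/-! The decision program and the program computing an optimal schedule. -/

namespace Vale.Agent.P324

open Vale.Agent.Lib.StackLang Function Finset

variable {B : ℕ} {body : P3 K}

/-- indicator vector of a set of jobs -/
def ind (G : Dag) (W : Finset ℕ) : List ℕ := vec (3 * G.n + 1) (fun y => if y ∈ W then 1 else 0)

theorem ctx_W (G : Dag) {W : Finset ℕ} (hW : W ⊆ range (3 * G.n)) : (G.ctx W).W = W :=
  Finset.filter_true_of_mem (fun _ hy => mem_range.1 (hW hy))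

theorem Base.env {G : Dag} {s : K → List ℕ} (h : Base G s) {W : Finset ℕ}
    (hW : W ⊆ range (3 * G.n)) (ha : s .al = ind G W) : Env (G.ctx W) s :=
  ⟨h.p, h.b.nu, h.b.idx, by rw [ctx_W G hW]; exact ha, h.rk⟩

open Classical in
theorem wp_solveW {G : Dag} {s : K → List ℕ} {F : List (List ℕ)} (h : Len B s) (hb : Base G s)
    {W : Finset ℕ} (hW : W ⊆ range (3 * G.n)) (ha : s .al = ind G W) :
    WP B body solve s F (fun s' F' t => F' = F ∧ Same [.fl, .cnt, .res] s s' ∧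
      t ≤ 3 * B + 7 ∧ s' .res = [if Good G.prec W then 1 else 0]) := by
  have h1 : 3 * G.n + 1 ≤ B := by simpa [hb.b.idx] using h .idx
  refine (wp_solve (by omega) (G.ctx W) h (hb.env hW ha) hb.b.tab).mono ?_
  rintro s' F' t _ ⟨rfl, a1, a2, a3⟩
  rw [ctx_W G hW] at a3
  exact ⟨rfl, a1, a2.trans (by show 3 * (3 * G.n) + 7 ≤ _; omega), a3⟩

/-- three times the top of a stack -/
def tripleE (k : K) : Ex K := .add (.top k) (.add (.top k) (.top k))

/-- make the first `3 T` jobs alive -/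
def alP (k : K) : P3 K := .act (.map .al .idx [] (Ex.lt (.top .idx) (tripleE k)).norm)

theorem wp_alP {G : Dag} {s : K → List ℕ} {F : List (List ℕ)} {Q : Post K} (h : Len B s)
    (hb : Base G s) {k : K} (hk : k ≠ .idx) {T : ℕ} (hT : s k = [T])
    (hQ : Len B (update s .al (ind G (range (3 * T)))) →
      Q (update s .al (ind G (range (3 * T)))) F 1) : WP B body (alP k) s F Q :=
  WP.map h (mapVal_vec (by simp [hb.b.idx]) (fun y => Ex.val_norm (by
    simp [tripleE, Ex.val, dropS, hk, hT, hb.b.idx]; omega))) hQ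

/-- compute the optimal makespan -/
def optP : P3 K :=
  .seq (.act (.set (.ex 0) (.top .nn))) (.seq (.act (.set (.ex 1) (.top .nn)))
  (forP (.ex 1) (.seq (alP (.ex 1)) (.seq solve
    (.act (.set (.ex 0) (.ifz (.and (Ex.lt (tripleE (.ex 1)) (.top .nn)).not (.top .res))
      (.top (.ex 0)) (.top (.ex 1)))))))))

/-- the optimal makespan -/
def Dag.IsOpt (G : Dag) (T : ℕ) : Prop :=
  (∃ τ, G.IsSchedule T τ) ∧ ∀ T' τ, G.IsSchedule T' τ → T ≤ T'

theorem wp_optP {G : Dag} {s : K → List ℕ} {F : List (List ℕ)} (h : Len B s) (hb : Base G s) :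
    WP B body optP s F (fun s' F' t => F' = F ∧ Base G s' ∧ s' .tt = s .tt ∧
      (∃ T ≤ G.n, s' (.ex 0) = [T] ∧ G.IsOpt T) ∧ t ≤ B * (3 * B + 11) + 3) := by
  classical
  have h1 : 3 * G.n + 1 ≤ B := by simpa [hb.b.idx] using h .idx
  refine WP.seq (WP.set h (by omega) (x := G.n) (by simp [hb.b.nn]) (fun l1 => ?_))
  refine WP.seq (WP.set l1 (by omega) (x := G.n) (by simp [hb.b.nn]) (fun l2 => ?_))
  refine (WP.forPB (by omega) (fun i s' => Same [.ex 0, .ex 1, .al, .fl, .cnt, .res] s s' ∧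
    ∃ T ≤ G.n, s' (.ex 0) = [T] ∧ (∃ τ, G.IsSchedule T τ) ∧
      ∀ T' τ, i ≤ T' → T' ≤ G.n → G.IsSchedule T' τ → T ≤ T') (3 * B + 9) G.n (by omega) ?_ _ l2
      (by simp) ?_).mono ?_
  · rintro i s1 hi l1 ⟨a1, T, a2, a3, a4, a5⟩
    have a6 := a1.update (k := .ex 1) (by simp) [i]
    refine WP.seq (wp_alP l1 (hb.same a6 (by simp [isW])) (by simp) (T := i) (by simp)
      (fun l2 => ?_))
    have a7 := a6.update (k := .al) (by simp) (ind G (range (3 * i)))
    refine WP.seq ((wp_solveW l2 (hb.same a7 (by simp [isW])) (W := range (3 * i))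
      (Finset.range_mono (by omega)) (by simp)).mono ?_)
    rintro s3 F3 t3 l3 ⟨rfl, b1, b2, b3⟩
    have a8 := a7.trans (b1.mono (by simp))
    have b4 := (hb.same a8 (by simp [isW])).b.nn
    have e : (Ex.and (Ex.lt (tripleE (.ex 1)) (.top .nn)).not (.top .res)).tr s3 ↔
        ∃ τ, G.IsSchedule i τ := by
      rw [Dag.sched_iff, Ex.tr_and, Ex.tr_not, Ex.tr_lt]
      refine and_congr ?_ (by simp [Ex.tr, b3])
      simp [tripleE, Ex.val, b1 (.ex 1), b4]
      omega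
    refine WP.set l3 (by omega) (x := if ∃ τ, G.IsSchedule i τ then i else T) ?_
      (fun _ => ⟨rfl, by simp [b1 (.ex 1)], ⟨a8.update (by simp) _, _, ?_, update_self .., ?_, ?_⟩,
        by omega⟩)
    · rw [Ex.val]
      by_cases c : ∃ τ, G.IsSchedule i τ
      · rw [if_neg (e.2 c), if_pos c]; simp [b1 (.ex 1)]
      · rw [if_pos (not_not.1 (fun h => c (e.1 h))), if_neg c]; simp [b1 (.ex 0), a3]
    · split_ifs <;> omega
    · split_ifs with c
      exacts [c, a4]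
    · intro T' τ h1 h2 h3
      split_ifs with c
      · exact h1
      · exact a5 T' τ (lt_of_le_of_ne h1 (by rintro rfl; exact c ⟨τ, h3⟩)) h2 h3
  · exact ⟨((Same.refl _ _).update (by simp) _).update (by simp) _, G.n, le_rfl, by simp,
      Dag.exists_sched_n, fun _ _ h _ _ => h⟩
  rintro s3 F3 t3 l3 ⟨rfl, ⟨a1, T, a2, a3, a4, a5⟩, a6 : t3 ≤ B * (3 * B + 11) + 1⟩
  refine ⟨rfl, hb.same a1 (by simp [isW]), a1 _ (by simp), ⟨T, a2, a3, a4, fun T' τ h => ?_⟩,
    by omega⟩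
  by_cases c : T' ≤ G.n
  · exact a5 T' τ (Nat.zero_le _) c h
  · omega

/-- the decision program -/
def mainD : P3 K :=
  .seq (.act (.set .tt (.top .inp))) (.seq (.act (.pop .inp)) (.seq prep (.seq optP
    (.act (.set .out (Ex.lt (.top .tt) (.top (.ex 0))).not.norm)))))

/-- bound on the length of vectors -/
def Bd (L : ℕ) : ℕ := (3 * L + 1) ^ 10 + L + 1

theorem Bd_spec (G : Dag) {i : List ℕ} (hi : G.code.length ≤ i.length) :
    Len (Bd (encL i).length) (update (fun _ => []) K.inp i) ∧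
      (3 * G.n + 1) ^ 10 + 1 ≤ Bd (encL i).length := by
  have h1 := length_le_encL i
  have h2 : G.n ≤ G.code.length := by
    rw [G.code_eq, List.length_cons, length_vec]; nlinarith
  have h3 : (3 * G.n + 1) ^ 10 ≤ (3 * (encL i).length + 1) ^ 10 :=
    Nat.pow_le_pow_left (by omega) _
  unfold Bd
  exact ⟨Len.update (fun _ => by simp) _ _ (by omega), by omega⟩

theorem wp_mainD (G : Dag) (T : ℕ) {s : K → List ℕ} (h : Len B s) (hi : s .inp = T :: G.code)
    (hB : (3 * G.n + 1) ^ 10 + 1 ≤ B) :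
    WP B body mainD s [] (fun s' _ t => s' .out = [G.answer T] ∧
      t ≤ B * (3 * B + 11) + (15 * B + 124)) := by
  classical
  refine WP.seq (WP.set h (by omega) (x := T) (by simp [hi]) (fun l1 => ?_))
  refine WP.seq (WP.pop l1 (l := G.code) (by simp [hi]) (fun l2 => ?_))
  refine WP.seq ((wp_prep G l2 (by simp) hB).mono ?_)
  rintro s3 F3 t3 l3 ⟨rfl, a1, a2, a3⟩
  refine WP.seq ((wp_optP l3 a1).mono ?_)
  rintro s4 F4 t4 l4 ⟨rfl, -, b2, ⟨T', -, b3, ⟨τ, b4⟩, b5⟩, b6⟩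
  refine WP.set l4 (by omega) (Ex.val_norm (p := ∃ τ, G.IsSchedule T τ) ?_)
    (fun _ => ⟨by simp [Dag.answer], by omega⟩)
  have : (Ex.lt (.top K.tt) (.top (.ex 0))).not.tr s4 ↔ T' ≤ T := by simp [b2, a2, b3]
  rw [this]
  exact ⟨fun h => ⟨τ, fun v => ⟨(b4.1 v).1, (b4.1 v).2.trans h⟩, b4.2⟩,
    fun ⟨τ', h⟩ => b5 T τ' h⟩

/-- load the triple number `j` -/
def loadT (j : K) : P3 K :=
  .seq (.act (.set (.ex 5) (.nth .ta .im j))) (.seq (.act (.set (.ex 6) (.nth .tb .im j)))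
    (.act (.set (.ex 7) (.nth .tc .im j))))

/-- the triple is loaded -/
def Ld (G : Dag) (j : ℕ) (s : K → List ℕ) : Prop :=
  s (.ex 5) = [dig (3 * G.n + 1) 0 j] ∧ s (.ex 6) = [dig (3 * G.n + 1) 1 j] ∧
    s (.ex 7) = [dig (3 * G.n + 1) 2 j]

theorem wp_loadT {G : Dag} {s : K → List ℕ} {F : List (List ℕ)} (h : Len B s) (hb : Base G s)
    {c : Fin 16} (hc : c = 4 ∨ c = 9) {j : ℕ} (hj : j < (3 * G.n + 1) ^ 10)
    (hs : s (.ex c) = [j]) :
    WP B body (loadT (.ex c)) s F (fun s' F' t => F' = F ∧ Same [.ex 5, .ex 6, .ex 7] s s' ∧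
      Ld G j s' ∧ t ≤ 3) := by
  have h1 : 3 * G.n + 1 ≤ B := by simpa [hb.b.idx] using h .idx
  have c5 : c ≠ 5 := by rcases hc with rfl | rfl <;> simp
  have c6 : c ≠ 6 := by rcases hc with rfl | rfl <;> simp
  refine WP.seq (WP.set h (by omega) (Ex.val_nth_vec hb.b.tab.ta hb.b.im (by simp) (by simp) hj
    (by simp [hs])) (fun l1 => ?_))
  refine WP.seq (WP.set l1 (by omega) (Ex.val_nth_vec (by simpa using hb.b.tab.tb)
    (by simpa using hb.b.im) (by simp) (by simp) hj (by simp [hs, c5])) (fun l2 => ?_))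
  exact WP.set l2 (by omega) (Ex.val_nth_vec (by simpa using hb.b.tab.tc)
    (by simpa using hb.b.im) (by simp) (by simp) hj (by simp [hs, c5, c6]))
    (fun _ => ⟨rfl, (((Same.refl _ _).update (by simp) _).update (by simp) _).update (by simp) _,
      ⟨by simp, by simp, by simp⟩, le_rfl⟩)

/-- the triple number `j` -/
abbrev InT (G : Dag) (j w : ℕ) : Prop :=
  w = dig (3 * G.n + 1) 0 j ∨ w = dig (3 * G.n + 1) 1 j ∨ w = dig (3 * G.n + 1) 2 j

/-- remove the loaded triple from the alive jobs -/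
def remP : P3 K :=
  .act (.map .al .idx [.al] (Ex.norm (.and (.top .al) (inS (.ex 5) (.ex 6) (.ex 7)).not)))

theorem wp_remP {G : Dag} {s : K → List ℕ} {F : List (List ℕ)} {Q : Post K} (h : Len B s)
    (hb : Base G s) {j : ℕ} (hj : Ld G j s) {W : Finset ℕ} (ha : s .al = ind G W)
    (hQ : Len B (update s .al (ind G (W.filter (fun w => ¬ InT G j w)))) →
      Q (update s .al (ind G (W.filter (fun w => ¬ InT G j w)))) F 1) :
    WP B body remP s F Q :=
  WP.map h (mapVal_vec (by simp [hb.b.idx]) (fun y => Ex.val_norm (by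
    rw [Ex.tr_and, mem_filter]
    exact and_congr (by simp [Ex.tr, dropS, ha, ind])
      (by simp [inS, dropS, hb.b.idx, hj.1, hj.2.1, hj.2.2])))) hQ

/-- the test for a last slot -/
def lastE : Ex K :=
  .and (.eq (sumY (Ex.norm (.and (.top .al) (inS (.ex 5) (.ex 6) (.ex 7))))) (.lit 3))
    (.and (.not (sumY (.and (.top .al) (.or (precE (.ex 5) .idx)
      (.or (precE (.ex 6) .idx) (precE (.ex 7) .idx)))))) (.top .res))

/-- the triple number `j` is a possible last slot -/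
abbrev LastJ (G : Dag) (W : Finset ℕ) (j : ℕ) : Prop :=
  Last G.prec W (dig (3 * G.n + 1) 0 j) (dig (3 * G.n + 1) 1 j) (dig (3 * G.n + 1) 2 j)

open Classical in
theorem tr_lastE {G : Dag} {s : K → List ℕ} (hb : Base G s) {j : ℕ} (hj : Ld G j s)
    {W : Finset ℕ} (hW : W ⊆ range (3 * G.n)) (ha : s .al = ind G W)
    (hr : s .res = [if Good G.prec (W.filter (fun w => ¬ InT G j w)) then 1 else 0]) :
    lastE.tr s ↔ LastJ G W j := by
  have hE := hb.env hW ha
  have hx : Hd (G.ctx W) s (.ex 5) (dig (3 * G.n + 1) 0 j) :=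
    ⟨by simp [envK], by simp [hj.1], dig_le _ _ _⟩
  have hy : Hd (G.ctx W) s (.ex 6) (dig (3 * G.n + 1) 1 j) :=
    ⟨by simp [envK], by simp [hj.2.1], dig_le _ _ _⟩
  have hz : Hd (G.ctx W) s (.ex 7) (dig (3 * G.n + 1) 2 j) :=
    ⟨by simp [envK], by simp [hj.2.2], dig_le _ _ _⟩
  have hal : Rep (G.ctx W) (.top .al) s (fun y => y ∈ W) :=
    (rep_al hE).congr (fun y => by rw [ctx_W G hW])
  have hle : ∀ w ∈ W, w ≤ (G.ctx W).ν := fun w hw => (mem_range.1 (hW hw)).le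
  rw [lastE, inS, Ex.tr_and, Ex.tr_and, Ex.tr_eq, Ex.tr_not,
    tr_sumY hE (hal.and ((rep_from hE hx).or ((rep_from hE hy).or (rep_from hE hz)))),
    val_cntY hE (J := W.filter (InT G j)) (fun w hw => hle w (mem_filter.1 hw).1)
      ((hal.and ((rep_eq hE hx).or ((rep_eq hE hy).or (rep_eq hE hz)))).congr
        (fun _ => by rw [mem_filter])), Ex.val_lit]
  refine and_congr Iff.rfl (and_congr ?_ (by simp [Ex.tr, hr]))
  exact ⟨fun hn w hw h => hn ⟨w, hle w hw, hw, h⟩, fun hn ⟨w, _, hw, h⟩ => hn w hw h⟩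

/-- find a last slot -/
def findP : P3 K :=
  .seq (cpy (.ex 3) .al) (.seq (.act (.set (.ex 9) .zero)) (.seq (.act (.set (.ex 4) (.len .im)))
  (forP (.ex 4) (.seq (loadT (.ex 4)) (.seq remP (.seq solve (.seq (cpy .al (.ex 3))
    (.act (.set (.ex 9) (.ifz lastE (.top (.ex 9)) (.top (.ex 4))))))))))))

theorem wp_findP {G : Dag} {s : K → List ℕ} {F : List (List ℕ)} (h : Len B s) (hb : Base G s)
    {W : Finset ℕ} (hW : W ⊆ range (3 * G.n)) (ha : s .al = ind G W) (hG : Good G.prec W)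
    (hne : W.Nonempty) :
    WP B body findP s F (fun s' F' t => F' = F ∧
      Same [.ex 3, .ex 4, .ex 5, .ex 6, .ex 7, .ex 9, .al, .fl, .cnt, .res] s s' ∧
      s' .al = ind G W ∧ (∃ j < (3 * G.n + 1) ^ 10, s' (.ex 9) = [j] ∧ LastJ G W j) ∧
      t ≤ B * (3 * B + 15) + 4) := by
  classical
  have h1 : 3 * G.n + 1 ≤ B := by simpa [hb.b.idx] using h .idx
  have h2 : (3 * G.n + 1) ^ 10 ≤ B := by simpa [hb.b.im] using h .im
  refine WP.seq (WP.cpy h ha (fun l1 => ?_))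
  refine WP.seq (WP.set l1 (by omega) (x := 0) rfl (fun l2 => ?_))
  refine WP.seq (WP.set l2 (by omega) (x := (3 * G.n + 1) ^ 10) (by simp [hb.b.im])
    (fun l3 => ?_))
  refine (WP.forPB (by omega) (fun i s' =>
    Same [.ex 3, .ex 4, .ex 5, .ex 6, .ex 7, .ex 9, .al, .fl, .cnt, .res] s s' ∧
    s' .al = ind G W ∧ s' (.ex 3) = ind G W ∧ ∃ b < (3 * G.n + 1) ^ 10, s' (.ex 9) = [b] ∧
      ∀ j, i ≤ j → j < (3 * G.n + 1) ^ 10 → LastJ G W j → LastJ G W b) (3 * B + 13) _ h2 ?_ _ l3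
      (by simp) ?_).mono ?_
  · rintro i s1 hi l1 ⟨a1, a2, a3, b, a4, a5, a6⟩
    have c1 := a1.update (k := .ex 4) (by simp) [i]
    refine WP.seq ((wp_loadT l1 (hb.same c1 (by simp [isW])) (Or.inl rfl) hi (by simp)).mono ?_)
    rintro s2 F2 t2 l2 ⟨rfl, b1, b2, b3⟩
    have c2 := c1.trans (b1.mono (by simp))
    refine WP.seq (wp_remP l2 (hb.same c2 (by simp [isW])) b2 (W := W) (by simp [b1 .al, a2])
      (fun l3 => ?_))
    have c3 := c2.update (k := .al) (by simp) (ind G (W.filter (fun w => ¬ InT G i w)))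
    refine WP.seq ((wp_solveW l3 (hb.same c3 (by simp [isW]))
      ((Finset.filter_subset _ _).trans hW) (update_self ..)).mono ?_)
    rintro s4 F4 t4 l4 ⟨rfl, d1, d2, d3⟩
    have c4 := c3.trans (d1.mono (by simp))
    refine WP.seq (WP.cpy l4 (l := ind G W) (by simp [d1 (.ex 3), b1 (.ex 3), a3]) (fun l5 => ?_))
    have c5 := c4.update (k := .al) (by simp) (ind G W)
    have e := tr_lastE (hb.same c5 (by simp [isW])) (j := i)
      ⟨by simp [d1 (.ex 5), b2.1], by simp [d1 (.ex 6), b2.2.1], by simp [d1 (.ex 7), b2.2.2]⟩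
      hW (update_self ..) (by simpa using d3)
    refine WP.set l5 (by omega) (x := if LastJ G W i then i else b) ?_
      (fun _ => ⟨rfl, by simp [d1 (.ex 4), b1 (.ex 4)], ⟨c5.update (by simp) _, by simp,
        by simp [d1 (.ex 3), b1 (.ex 3), a3], _, ?_, update_self .., ?_⟩, by omega⟩)
    · rw [Ex.val]
      by_cases c : LastJ G W i
      · rw [if_neg (e.2 c), if_pos c]; simp [d1 (.ex 4), b1 (.ex 4)]
      · rw [if_pos (not_not.1 (fun h => c (e.1 h))), if_neg c]; simp [d1 (.ex 9), b1 (.ex 9), a5]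
    · split_ifs <;> omega
    · intro j h1 h2 h3
      split_ifs with c
      · exact c
      · exact a6 j (lt_of_le_of_ne h1 (by rintro rfl; exact c h3)) h2 h3
  · exact ⟨(((Same.refl _ _).update (by simp) _).update (by simp) _).update (by simp) _,
      by simp [ha], by simp, 0, by positivity, by simp, fun _ h1 h2 => by omega⟩
  rintro s3 F3 t3 l3 ⟨rfl, ⟨a1, a2, -, b, a4, a5, a6⟩, a7 : t3 ≤ B * (3 * B + 15) + 1⟩
  obtain ⟨x, hx, y, hy, z, hz, hl⟩ := hG.last hne
  obtain ⟨j, rfl, rfl, rfl⟩ := exists_dig3 (3 * G.n) x y z (mem_range.1 (hW hx)).le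
    (mem_range.1 (hW hy)).le (mem_range.1 (hW hz)).le
  exact ⟨rfl, a1, a2, ⟨b, a4, a5, a6 j (Nat.zero_le _) j.2 hl⟩, by omega⟩

/-- the program computing an optimal schedule -/
def mainS : P3 K :=
  .seq prep (.seq optP (.seq (alP (.ex 0)) (.seq (cpy (.ex 2) .idx) (.seq (cpy (.ex 1) (.ex 0))
  (.seq (forP (.ex 1) (.seq findP (.seq (loadT (.ex 9)) (.seq remP
    (.act (.map (.ex 2) .idx [.ex 2] (.ifz (inS (.ex 5) (.ex 6) (.ex 7)) (.top (.ex 2))
      (.add (.top (.ex 1)) .one))))))))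
  (.seq (.act (.map .out .idn [.ex 2] (.top (.ex 2)))) (.act (.push .out (.top (.ex 0))))))))))

theorem wp_mainS (G : Dag) {s : K → List ℕ} (h : Len B s) (hi : s .inp = G.code)
    (hB : (3 * G.n + 1) ^ 10 + 1 ≤ B) :
    WP B body mainS s [] (fun s' _ t => (∃ T τ, G.IsSchedule T τ ∧
      (∀ T' τ', G.IsSchedule T' τ' → T ≤ T') ∧ s' .out = T :: List.ofFn τ) ∧
      t ≤ B * (B * (3 * B + 15) + 11) + (B * (3 * B + 11) + (15 * B + 127))) := by
  classical
  refine WP.seq ((wp_prep G h hi hB).mono ?_)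
  rintro s3 F3 t3 l3 ⟨rfl, a1, -, a3⟩
  refine WP.seq ((wp_optP l3 a1).mono ?_)
  rintro s4 F4 t4 l4 ⟨rfl, hb, -, ⟨T, hT, b3, b4, b5⟩, b6⟩
  have h1 : 3 * G.n + 1 ≤ B := by simpa [hb.b.idx] using l4 .idx
  obtain ⟨hn, hG⟩ := (Dag.sched_iff T).1 b4
  have hW : range (3 * T) ⊆ range (3 * G.n) := Finset.range_mono (by omega)
  refine WP.seq (wp_alP l4 hb (by simp) b3 (fun l5 => ?_))
  refine WP.seq (WP.cpy l5 (l := vec (3 * G.n + 1) id) (by simp [hb.b.idx]) (fun l6 => ?_))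
  refine WP.seq (WP.cpy l6 (l := [T]) (by simp [b3]) (fun l7 => ?_))
  refine WP.seq ((WP.forPB (by omega) (fun i s' =>
    Same [.ex 1, .ex 2, .ex 3, .ex 4, .ex 5, .ex 6, .ex 7, .ex 9, .al, .fl, .cnt, .res] s4 s' ∧
    ∃ W σ, s' .al = ind G W ∧ s' (.ex 2) = vec (3 * G.n + 1) σ ∧
      Inv G.prec (range (3 * T)) T W i σ) (B * (3 * B + 15) + 9) T (by omega) ?_ _ l7
      (by simp) ?_).mono ?_)
  · rintro i s1 hi l1 ⟨a1, W, σ, a2, a3, a4⟩
    have c1 := a1.update (k := .ex 1) (by simp) [i]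
    refine WP.seq ((wp_findP l1 (hb.same c1 (by simp [isW])) (a4.sub.trans hW) (by simp [a2])
      a4.good (Finset.card_pos.1 (by have := a4.card; omega))).mono ?_)
    rintro s2 F2 t2 l2 ⟨rfl, d1, d2, ⟨j, d3, d4, d5⟩, d6⟩
    have c2 := c1.trans (d1.mono (by simp))
    refine WP.seq ((wp_loadT l2 (hb.same c2 (by simp [isW])) (Or.inr rfl) d3 d4).mono ?_)
    rintro s5 F5 t5 l5 ⟨rfl, e1, e2, e3⟩
    have c3 := c2.trans (e1.mono (by simp))
    have hb3 := hb.same c3 (by simp [isW])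
    refine WP.seq (wp_remP l5 hb3 e2 (W := W) (by simp [e1 .al, d2]) (fun l6 => ?_))
    refine WP.map l6 (l := vec (3 * G.n + 1) (fun w => if InT G j w then i + 1 else σ w))
      (mapVal_vec (by simp [hb3.b.idx]) (fun y => ?_))
      (fun _ => ⟨rfl, by simp [e1 (.ex 1), d1 (.ex 1)], ⟨(c3.update (by simp) _).update (by simp) _,
        _, _, by simp, update_self .., a4.step hi d5⟩, by omega⟩)
    have e : (inS (.ex 5) (.ex 6) (.ex 7)).tr (dropS [K.idx, .ex 2] y
        (update s5 .al (ind G (W.filter (fun w => ¬ InT G j w))))) ↔ InT G j y := by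
      simp [inS, dropS, hb3.b.idx, e2.1, e2.2.1, e2.2.2]
    rw [Ex.val]
    by_cases c : InT G j y
    · rw [if_neg (e.2 c), if_pos c]; simp [Ex.val, dropS, e1 (.ex 1), d1 (.ex 1)]
    · rw [if_pos (not_not.1 (fun h => c (e.1 h))), if_neg c]
      simp [dropS, e1 (.ex 2), d1 (.ex 2), a3]
  · exact ⟨(((Same.refl _ _).update (by simp) _).update (by simp) _).update (by simp) _,
      range (3 * T), id, by simp, by simp, Inv.start hG (by simp) id⟩
  rintro s8 F8 t8 l8 ⟨rfl, ⟨c1, W, σ, -, c3, c4⟩, c5 : t8 ≤ B * (B * (3 * B + 15) + 11) + 1⟩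
  have hb8 := hb.same c1 (by simp [isW])
  refine WP.seq (WP.map l8 (l := vec G.n σ) (mapVal_vec (by simp [hb8.b.idn]) (fun y => ?_))
    (fun l9 => ?_))
  · have := getElem?_vec (3 * G.n + 1) σ ⟨y, by have := y.2; omega⟩
    simp only [] at this
    simp [dropS, c3, this]
  refine WP.push l9 (l := T :: vec G.n σ) (by simp [c1 (.ex 0), b3]) (by simp; omega)
    (fun _ => ⟨⟨T, fun v => σ v, Dag.sched_of_inv hn c4, b5, by simp [vec]⟩, by omega⟩)

end Vale.Agent.P324
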