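import Vale.Agent.P324.Defs
import Vale.Agent.P324.Complete

/-! Reduction of the scheduling problem to perfect schedules. -/

namespace Vale.Agent.P324

open Finset

section general

variable {r : ℕ → ℕ → Prop}

variable (r) in
/-- the jobs of `W₀` outside `W` are scheduled in the slots `t + 1, …, T` -/
structure Inv (W₀ : Finset ℕ) (T : ℕ) (W : Finset ℕ) (t : ℕ) (σ : ℕ → ℕ) : Prop where
  sub : W ⊆ W₀
  card : W.card = 3 * t
  good : Good r W
  time : ∀ y ∈ W₀, y ∉ W → t < σ y ∧ σ y ≤ T
  cnt : ∀ v, (W₀.filter (fun y => y ∉ W ∧ σ y = v)).card ≤ 3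
  prec : ∀ y ∈ W₀, y ∉ W → ∀ z ∈ W₀, r y z → z ∉ W ∧ σ y < σ z

variable (r) in
/-- a possible last slot -/
def Last (W : Finset ℕ) (x y z : ℕ) : Prop :=
  (W.filter (fun w => w = x ∨ w = y ∨ w = z)).card = 3 ∧
    (∀ w ∈ W, ¬ (r x w ∨ r y w ∨ r z w)) ∧ Good r (W.filter (fun w => ¬ (w = x ∨ w = y ∨ w = z)))

theorem Good.last {W : Finset ℕ} (h : Good r W) (hne : W.Nonempty) :
    ∃ x ∈ W, ∃ y ∈ W, ∃ z ∈ W, Last r W x y z := by
  obtain ⟨τ, hτ⟩ := h
  obtain ⟨x, hx, hmax⟩ := Finset.exists_max_image W τ hne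
  obtain ⟨y, hy, y1, _, y2⟩ := hτ.exists_mate hx x
  obtain ⟨z, hz, z1, z2, z3⟩ := hτ.exists_mate hx y
  have slot := hτ.slot hx hy hz y1 z1 z2 y2 z3
  refine ⟨x, hx, y, hy, z, hz, ?_, ?_, τ, ?_⟩
  · rw [← hτ.1 x hx]
    congr 1
    exact Finset.filter_congr (fun w hw => (slot w hw).symm)
  · intro w hw h
    have := hmax w hw
    rcases h with h | h | h
    · have := hτ.2 x hx w hw h; omega
    · have := hτ.2 y hy w hw h; omega
    · have := hτ.2 z hz w hw h; omega
  · refine hτ.restrict (Finset.filter_subset _ _) (fun a ha b hb e => ?_)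
    rw [mem_filter] at ha ⊢
    refine ⟨hb, ?_⟩
    rw [← slot b hb, e, slot a ha.1]
    exact ha.2

theorem Inv.step {W₀ W : Finset ℕ} {T t : ℕ} {σ : ℕ → ℕ} (h : Inv r W₀ T W (t + 1) σ)
    (ht : t + 1 ≤ T) {x y z : ℕ} (hl : Last r W x y z) :
    Inv r W₀ T (W.filter (fun w => ¬ (w = x ∨ w = y ∨ w = z))) t
      (fun w => if w = x ∨ w = y ∨ w = z then t + 1 else σ w) := by
  have hS : ∀ w, (w = x ∨ w = y ∨ w = z) → w ∈ W := by
    have h3 : W.filter (fun w => w = x ∨ w = y ∨ w = z) = {x, y, z} :=
      Finset.eq_of_subset_of_card_le (fun w hw => by simpa using (mem_filter.1 hw).2)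
        (by rw [hl.1]; exact Finset.card_le_three)
    intro w hw
    have : w ∈ ({x, y, z} : Finset ℕ) := by simpa using hw
    rw [← h3] at this
    exact (mem_filter.1 this).1
  refine ⟨(Finset.filter_subset _ _).trans h.sub, ?_, hl.2.2, ?_, ?_, ?_⟩
  · have := Finset.card_filter_add_card_filter_not (s := W) (fun w => w = x ∨ w = y ∨ w = z)
    have := hl.1
    have := h.card
    omega
  · intro w hw hn
    split_ifs with c
    · omega
    · have := h.time w hw (fun h => hn (mem_filter.2 ⟨h, c⟩))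
      omega
  · intro v
    by_cases hv : v = t + 1
    · refine le_trans (Finset.card_le_card (t := {x, y, z}) ?_) Finset.card_le_three
      intro w hw
      obtain ⟨h1, h2, h3⟩ := mem_filter.1 hw
      by_contra hc
      have c : ¬ (w = x ∨ w = y ∨ w = z) := by simpa using hc
      rw [if_neg c] at h3
      have := h.time w h1 (fun h => h2 (mem_filter.2 ⟨h, c⟩))
      omega
    · refine le_trans (Finset.card_le_card ?_) (h.cnt v)
      intro w hw
      obtain ⟨h1, h2, h3⟩ := mem_filter.1 hw
      by_cases c : w = x ∨ w = y ∨ w = z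
      · rw [if_pos c] at h3; omega
      · rw [if_neg c] at h3
        exact mem_filter.2 ⟨h1, fun h => h2 (mem_filter.2 ⟨h, c⟩), h3⟩
  · intro a ha hn b hb hr
    by_cases c : a = x ∨ a = y ∨ a = z
    · have hbW : b ∉ W := fun hbW => hl.2.1 b hbW (by
        rcases c with rfl | rfl | rfl
        exacts [Or.inl hr, Or.inr (Or.inl hr), Or.inr (Or.inr hr)])
      refine ⟨fun h => hbW (mem_filter.1 h).1, ?_⟩
      rw [if_pos c, if_neg (fun h => hbW (hS b h))]
      exact (h.time b hb hbW).1
    · obtain ⟨h1, h2⟩ := h.prec a ha (fun h => hn (mem_filter.2 ⟨h, c⟩)) b hb hr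
      refine ⟨fun h => h1 (mem_filter.1 h).1, ?_⟩
      rw [if_neg c, if_neg (fun h => h1 (hS b h))]
      exact h2

theorem Inv.start {W₀ : Finset ℕ} {T : ℕ} (hG : Good r W₀) (hc : W₀.card = 3 * T) (σ : ℕ → ℕ) :
    Inv r W₀ T W₀ T σ :=
  ⟨subset_rfl, hc, hG, fun _ h h' => absurd h h', fun v => by
    rw [Finset.filter_false_of_mem (fun y hy h => h.1 hy)]; simp, fun _ h h' => absurd h h'⟩

theorem Inv.exists_zero {W₀ W : Finset ℕ} {T t : ℕ} {σ : ℕ → ℕ} (h : Inv r W₀ T W t σ)
    (ht : t ≤ T) : ∃ W' σ', Inv r W₀ T W' 0 σ' := by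
  induction t generalizing W σ with
  | zero => exact ⟨W, σ, h⟩
  | succ t ih =>
    obtain ⟨x, _, y, _, z, _, hl⟩ := h.good.last (Finset.card_pos.1 (by have := h.card; omega))
    exact ih (h.step ht hl) (by omega)

end general

namespace Dag

variable (G : Dag)

/-- arcs between numbers -/
def arc (u w : ℕ) : Prop := ∃ (hu : u < G.n) (hw : w < G.n), G.adj ⟨u, hu⟩ ⟨w, hw⟩ = true

/-- precedence -/
def prec : ℕ → ℕ → Prop := Relation.TransGen G.arc

variable {G}

theorem prec_iff {u w : ℕ} (h : G.prec u w) : ∃ (hu : u < G.n) (hw : w < G.n),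
    Relation.TransGen (fun a b => G.adj a b = true) ⟨u, hu⟩ ⟨w, hw⟩ := by
  induction h with
  | single h =>
    obtain ⟨h1, h2, h3⟩ := h
    exact ⟨h1, h2, Relation.TransGen.single h3⟩
  | tail _ h ih =>
    obtain ⟨h1, h2, h3⟩ := h
    obtain ⟨h4, h5, h6⟩ := ih
    exact ⟨h4, h2, h6.tail h3⟩

theorem prec_irrefl (u : ℕ) : ¬ G.prec u u := fun h => by
  obtain ⟨_, _, h⟩ := prec_iff h
  exact G.acyclic _ h

theorem sched_of_inv {T : ℕ} (hn : G.n ≤ 3 * T) {W : Finset ℕ} {σ : ℕ → ℕ}
    (h : Inv G.prec (range (3 * T)) T W 0 σ) : G.IsSchedule T (fun v => σ v) := by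
  have hW : W = ∅ := Finset.card_eq_zero.1 (by have := h.card; omega)
  subst hW
  have hm : ∀ v : Fin G.n, (v : ℕ) ∈ range (3 * T) := fun v => mem_range.2 (by have := v.2; omega)
  refine ⟨fun v => h.time v (hm v) (by simp), fun t => le_trans ?_ (h.cnt t), fun u v huv =>
    (h.prec u (hm u) (by simp) v (hm v) (Relation.TransGen.single ⟨u.2, v.2, huv⟩)).2⟩
  refine Finset.card_le_card_of_injOn (fun v => (v : ℕ)) (fun v hv => ?_)
    (fun a _ b _ e => Fin.ext e)
  simp only [coe_filter, mem_univ, true_and, Set.mem_ofPred_eq] at hv ⊢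
  exact ⟨hm v, by simp, hv⟩

theorem pad {T : ℕ} {τ : Fin G.n → ℕ} (h : G.IsSchedule T τ) (k : ℕ) (hk : G.n + k ≤ 3 * T) :
    ∃ σ : ℕ → ℕ, (∀ y < G.n + k, 1 ≤ σ y ∧ σ y ≤ T) ∧
      (∀ t, ((range (G.n + k)).filter (fun y => σ y = t)).card ≤ 3) ∧
      ∀ y z, G.prec y z → σ y < σ z := by
  induction k with
  | zero =>
    refine ⟨fun y => if hy : y < G.n then τ ⟨y, hy⟩ else 0, fun y hy => ?_, fun t => ?_, ?_⟩
    · beta_reduce; rw [dif_pos (by omega)]; exact h.1 _
    · refine le_trans (le_of_eq ?_) (h.2.1 t)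
      symm
      refine Finset.card_bij (fun v _ => (v : ℕ)) (fun v hv => ?_) (fun a _ b _ e => Fin.ext e)
        (fun y hy => ?_)
      · simpa using hv
      · simp only [add_zero, mem_filter, mem_range] at hy
        rw [dif_pos hy.1] at hy
        exact ⟨⟨y, hy.1⟩, by simpa using hy.2, rfl⟩
    · intro y z hyz
      induction hyz with
      | single h' =>
        obtain ⟨h1, h2, h3⟩ := h'
        simpa [h1, h2] using h.2.2 _ _ h3
      | tail _ h' ih =>
        obtain ⟨h1, h2, h3⟩ := h'
        have := h.2.2 _ _ h3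
        simp only [h1, h2, dif_pos] at ih ⊢
        omega
  | succ k ih =>
    obtain ⟨σ, h1, h2, h3⟩ := ih (by omega)
    obtain ⟨t, ht, hlt⟩ : ∃ t ∈ Icc 1 T,
        ((range (G.n + k)).filter (fun y => σ y = t)).card < 3 := by
      by_contra hc
      push Not at hc
      have a1 := Finset.card_eq_sum_card_fiberwise (s := range (G.n + k)) (t := Icc 1 T) (f := σ)
        (fun y hy => by simpa using h1 y (by simpa using hy))
      have a2 := Finset.card_nsmul_le_sum (Icc 1 T) _ 3 hc
      simp only [card_range, Nat.card_Icc, smul_eq_mul] at a1 a2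
      omega
    rw [mem_Icc] at ht
    refine ⟨fun y => if y = G.n + k then t else σ y, fun y hy => ?_, fun v => ?_, ?_⟩
    · beta_reduce
      split_ifs with c
      · exact ht
      · exact h1 y (by omega)
    · rw [← add_assoc, Finset.range_add_one, Finset.filter_insert]
      have e : (range (G.n + k)).filter (fun y => (if y = G.n + k then t else σ y) = v) =
          (range (G.n + k)).filter (fun y => σ y = v) :=
        Finset.filter_congr (fun y hy => by rw [if_neg (by have := mem_range.1 hy; omega)])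
      beta_reduce
      rw [e, if_pos rfl]
      split_ifs with c
      · subst c
        exact le_trans (Finset.card_insert_le _ _) hlt
      · exact h2 v
    · intro y z hyz
      obtain ⟨a1, a2, _⟩ := prec_iff hyz
      beta_reduce
      rw [if_neg (by omega), if_neg (by omega)]
      exact h3 y z hyz

theorem le_of_sched {T : ℕ} {τ : Fin G.n → ℕ} (h : G.IsSchedule T τ) : G.n ≤ 3 * T := by
  have a1 := Finset.card_eq_sum_card_fiberwise (s := univ) (t := Icc 1 T) (f := τ)
    (fun y _ => by simpa using h.1 y)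
  have a2 := Finset.sum_le_card_nsmul (Icc 1 T) _ 3 (fun t _ => h.2.1 t)
  simp only [card_univ, Fintype.card_fin, Nat.card_Icc, smul_eq_mul] at a1 a2
  omega

theorem sched_iff (T : ℕ) :
    (∃ τ, G.IsSchedule T τ) ↔ G.n ≤ 3 * T ∧ Good G.prec (range (3 * T)) := by
  constructor
  · rintro ⟨τ, h⟩
    have hn := le_of_sched h
    obtain ⟨σ, h1, h2, h3⟩ := pad h (3 * T - G.n) (by omega)
    rw [show G.n + (3 * T - G.n) = 3 * T by omega] at h1 h2
    refine ⟨hn, σ, fun y hy => ?_, fun y _ z _ => h3 y z⟩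
    by_contra hc
    have a1 := Finset.card_eq_sum_card_fiberwise (s := range (3 * T)) (t := Icc 1 T) (f := σ)
      (fun y hy => by simpa using h1 y (by simpa using hy))
    have a2 := Finset.sum_lt_sum (s := Icc 1 T) (g := fun _ => 3) (fun t _ => h2 t)
      ⟨σ y, by simpa using h1 y (by simpa using hy), lt_of_le_of_ne (h2 _) hc⟩
    simp only [card_range, sum_const, Nat.card_Icc, smul_eq_mul] at a1 a2
    omega
  · rintro ⟨hn, h⟩
    obtain ⟨W, σ, h'⟩ := (Inv.start (T := T) h (by simp) id).exists_zero le_rfl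
    exact ⟨_, sched_of_inv hn h'⟩

variable (G)

open Classical in
/-- number of predecessors -/
noncomputable def npred (y : ℕ) : ℕ := ((range (3 * G.n + 1)).filter (fun z => G.prec z y)).card

/-- a linear extension -/
noncomputable def key (y : ℕ) : ℕ := (3 * G.n + 1) * G.npred y + y

/-- the rank in the linear extension -/
noncomputable def rank (y : ℕ) : ℕ :=
  ((range (3 * G.n + 1)).filter (fun z => G.key z < G.key y ∧ ¬ z = 3 * G.n)).card

variable {G}

theorem key_lt {y z : ℕ} (h : G.prec y z) : G.key y < G.key z := by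
  classical
  obtain ⟨h1, h2, _⟩ := prec_iff h
  have : G.npred y < G.npred z := by
    refine Finset.card_lt_card ⟨fun w hw => ?_, fun hsub => ?_⟩
    · rw [mem_filter] at hw ⊢
      exact ⟨hw.1, Relation.TransGen.trans hw.2 h⟩
    · exact prec_irrefl y (mem_filter.1 (hsub (mem_filter.2 ⟨mem_range.2 (by omega), h⟩))).2
  have := Nat.mul_le_mul_left (3 * G.n + 1) this
  unfold key
  rw [Nat.mul_succ] at this
  omega

theorem key_inj {y z : ℕ} (hy : y < 3 * G.n) (hz : z < 3 * G.n) (h : G.key y = G.key z) :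
    y = z := by
  have := congrArg (· % (3 * G.n + 1)) h
  simp only [key, Nat.mul_add_mod] at this
  rwa [Nat.mod_eq_of_lt (by omega), Nat.mod_eq_of_lt (by omega)] at this

theorem rank_lt {y z : ℕ} (hy : y < 3 * G.n) (h : G.key y < G.key z) : G.rank y < G.rank z := by
  refine Finset.card_lt_card ⟨fun w hw => ?_, fun hsub => ?_⟩
  · rw [mem_filter] at hw ⊢
    exact ⟨hw.1, by omega, hw.2.2⟩
  · have := (mem_filter.1 (hsub (mem_filter.2 ⟨mem_range.2 (by omega), h, by omega⟩))).2.1
    omega

variable (G) in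
/-- the instance given by a set of alive jobs -/
noncomputable def ctx (W : Finset ℕ) : Ctx where
  ν := 3 * G.n
  W := W.filter (fun y => y < 3 * G.n)
  r := G.prec
  ρ := G.rank
  trans _ _ _ := Relation.TransGen.trans
  lt _ hy := (mem_filter.1 hy).2
  rho_lt y hy := by
    have hy := (mem_filter.1 hy).2
    have : G.rank y ≤ ((range (3 * G.n)).erase y).card := by
      refine Finset.card_le_card (fun w hw => ?_)
      simp only [mem_filter, mem_range, mem_erase] at hw ⊢
      exact ⟨by rintro rfl; omega, by omega⟩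
    rw [Finset.card_erase_of_mem (mem_range.2 hy), card_range] at this
    omega
  rho_inj y hy z hz e := by
    have hy := (mem_filter.1 hy).2
    have hz := (mem_filter.1 hz).2
    rcases lt_trichotomy (G.key y) (G.key z) with h | h | h
    · have := rank_lt hy h; omega
    · exact key_inj hy hz h
    · have := rank_lt hz h; omega
  rho_mono y hy z _ h := rank_lt (mem_filter.1 hy).2 (key_lt h)
  nu y h := by
    obtain ⟨h1, _⟩ := prec_iff h
    omega

theorem exists_sched_n : ∃ τ, G.IsSchedule G.n τ := by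
  classical
  set f : Fin G.n → ℕ := fun v => (univ.filter (fun w : Fin G.n => G.key w ≤ G.key v)).card with hf
  have lt : ∀ u v : Fin G.n, G.key u < G.key v → f u < f v := by
    intro u v h
    refine Finset.card_lt_card ⟨fun w hw => ?_, fun hsub => ?_⟩
    · simp only [mem_filter, mem_univ, true_and] at hw ⊢
      omega
    · have := hsub (mem_filter.2 ⟨mem_univ v, le_rfl⟩)
      simp only [mem_filter, mem_univ, true_and] at this
      omega
  refine ⟨f, fun v => ⟨Finset.card_pos.2 ⟨v, by simp⟩, ?_⟩, fun t => ?_, fun u v h =>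
    lt u v (key_lt (Relation.TransGen.single ⟨u.2, v.2, h⟩))⟩
  · simpa using Finset.card_filter_le univ (fun w : Fin G.n => G.key w ≤ G.key v)
  · refine le_trans (Finset.card_le_one.2 (fun a ha b hb => ?_)) (by norm_num)
    simp only [mem_filter, mem_univ, true_and] at ha hb
    have := a.2
    have := b.2
    rcases lt_trichotomy (G.key a) (G.key b) with h | h | h
    · have := lt a b h; omega
    · exact Fin.ext (key_inj (by omega) (by omega) h)
    · have := lt b a h; omega

end Dag

/-- paths with intermediate vertices at least `c` -/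
inductive War (A : ℕ → ℕ → Prop) (c : ℕ) : ℕ → ℕ → Prop
  | single {u w : ℕ} : A u w → War A c u w
  | tail {u z w : ℕ} : War A c u z → c ≤ z → A z w → War A c u w

theorem War.mono {A : ℕ → ℕ → Prop} {c u w : ℕ} (h : War A (c + 1) u w) : War A c u w := by
  induction h with
  | single h => exact .single h
  | tail _ h1 h2 ih => exact .tail ih (by omega) h2

theorem war_step {A : ℕ → ℕ → Prop} {c u w : ℕ} :
    War A c u w ↔ War A (c + 1) u w ∨ (War A (c + 1) u c ∧ War A (c + 1) c w) := by
  constructor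
  · intro h
    induction h with
    | single h => exact Or.inl (.single h)
    | tail _ h1 h2 ih =>
      rcases h1.eq_or_lt with rfl | h1
      · exact Or.inr ⟨ih.elim id And.left, .single h2⟩
      · exact ih.imp (fun h => .tail h h1 h2) (fun h => ⟨h.1, .tail h.2 h1 h2⟩)
  · rintro (h | ⟨h1, h2⟩)
    · exact h.mono
    · induction h2 with
      | single h => exact .tail h1.mono le_rfl h
      | tail _ h3 h4 ih => exact .tail ih (by omega) h4

theorem war_top (G : Dag) {u w : ℕ} : War G.arc G.n u w ↔ G.arc u w := by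
  refine ⟨fun h => ?_, .single⟩
  cases h with
  | single h => exact h
  | tail _ h1 h2 => obtain ⟨h3, _⟩ := h2; omega

theorem war_zero (G : Dag) {u w : ℕ} : War G.arc 0 u w ↔ G.prec u w := by
  constructor
  · intro h
    induction h with
    | single h => exact .single h
    | tail _ _ h2 ih => exact ih.tail h2
  · intro h
    induction h with
    | single h => exact .single h
    | tail _ h2 ih => exact .tail ih (Nat.zero_le _) h2

end Vale.Agent.P324
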