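import Vale.Agent.P324.Solve
import Vale.Agent.P324.Reduce

/-! Building the tables from the input. -/

namespace Vale.Agent.P324

open Vale.Agent.Lib.StackLang Function Finset

variable {B : ℕ} {body : P3 K}

open Classical in
theorem Dag.code_eq (G : Dag) : G.code =
    G.n :: vec (G.n * G.n) (fun k => if G.arc (k / G.n) (k % G.n) then 1 else 0) := by
  unfold Dag.code vec
  rw [List.ofFn_mul']
  congr 2
  refine List.ofFn_inj.2 (funext fun u => List.ofFn_inj.2 (funext fun v => ?_))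
  have e1 : (G.n * u + v) / G.n = u := by
    rw [Nat.mul_add_div G.n_pos, Nat.div_eq_of_lt v.2, add_zero]
  have e2 : (G.n * u + v) % G.n = v := by rw [Nat.mul_add_mod, Nat.mod_eq_of_lt v.2]
  simp only [e1, e2]
  by_cases h : G.adj u v = true
  · rw [if_pos h, if_pos ⟨u.2, v.2, h⟩]
  · rw [if_neg h, if_neg (fun ⟨_, _, h'⟩ => h h')]

theorem WP.forPB (hB : 1 ≤ B) {c : K} {p : P3 K} {F : List (List ℕ)}
    (I : ℕ → (K → List ℕ) → Prop) (T n : ℕ) (hn : n ≤ B)
    (h1 : ∀ i s, i < n → Len B (update s c [i]) → I (i + 1) s →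
      WP B body p (update s c [i]) F (fun s' F' t => F' = F ∧ s' c = [i] ∧ I i s' ∧ t ≤ T))
    (s : K → List ℕ) (h : Len B s) (hc : s c = [n]) (hI : I n s) :
    WP B body (forP c p) s F (fun s' F' t => F' = F ∧ I 0 s' ∧ t ≤ B * (T + 2) + 1) :=
  (WP.forP hB I T n h1 s h hc hI).mono (fun _ _ _ _ ⟨a, b, c⟩ =>
    ⟨a, b, c.trans (Nat.succ_le_succ (Nat.mul_le_mul_right _ hn))⟩)

/-- one digit -/
def digStep (i : Fin 10) : P3 K :=
  .seq (.act (.map .q .v [] (.sum .mul [] (Ex.lt (.top .v) (.top .mul)).not.norm)))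
  (.seq (.act (.map (.a i) .v [.q] (.sub (.top .v) (.mulLen .idx .q))))
  (.seq (cpy (.c i) (.a i)) (cpy .v .q)))

/-- the digit tables -/
def digs : ℕ → P3 K
  | 0 => cpy .v .im
  | k + 1 => .seq (digs k) (digStep (Fin.ofNat 10 k))

theorem card_mul_le (N M v : ℕ) (hN : 0 < N) (hv : v < M) :
    ((range M).filter (fun j => ¬ v < N * j + N)).card = v / N := by
  have : (range M).filter (fun j => ¬ v < N * j + N) = range (v / N) := by
    ext j
    have h1 := Nat.div_le_self v N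
    simp only [mem_filter, mem_range, not_lt]
    rw [← Nat.mul_succ, mul_comm, ← Nat.le_div_iff_mul_le hN]
    omega
  rw [this, card_range]

theorem wp_digs {ν : ℕ} {s : K → List ℕ} {F : List (List ℕ)} (h : Len B s)
    (h1 : s .idx = vec (ν + 1) id) (h2 : s .im = vec ((ν + 1) ^ 10) id)
    (h3 : s .mul = vec ((ν + 1) ^ 10) (fun j => (ν + 1) * j + (ν + 1))) (k : ℕ) (hk : k ≤ 10) :
    WP B body (digs k) s F (fun s' F' t => F' = F ∧ Same (.v :: .q :: (la ++ lc)) s s' ∧
      s' .v = vec ((ν + 1) ^ 10) (fun j => j / (ν + 1) ^ k) ∧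
      (∀ i : Fin 10, (i : ℕ) < k → s' (.a i) = digL ν i ∧ s' (.c i) = digL ν i) ∧
      t ≤ 4 * k + 1) := by
  induction k with
  | zero =>
    exact WP.cpy h h2 (fun _ => ⟨rfl, (Same.refl _ _).update (by simp) _,
      by simp [vec], by simp, le_rfl⟩)
  | succ k ih =>
    refine WP.seq ((ih (by omega)).mono ?_)
    rintro s1 F1 t1 l1 ⟨rfl, a1, a2, a3, a4⟩
    have e : ((Fin.ofNat 10 k : Fin 10) : ℕ) = k := Nat.mod_eq_of_lt (by omega)
    generalize Fin.ofNat 10 k = i0 at e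
    refine WP.seq (WP.map l1 (l := vec ((ν + 1) ^ 10) (fun j => j / (ν + 1) ^ (k + 1)))
      (mapVal_vec (by simp [a2]) (fun j => ?_)) (fun l2 => ?_))
    · rw [Ex.val_count (n := (ν + 1) ^ 10) (by simp [dropS, a1 .mul (by simp), h3])
        (fun i => ¬ j / (ν + 1) ^ k < (ν + 1) * i + (ν + 1))
        (fun i => by simp [dropS, a1 .mul (by simp), h3, a2]),
        card_mul_le _ _ _ (by omega) (lt_of_le_of_lt (Nat.div_le_self _ _) j.2),
        Nat.div_div_eq_div_mul, pow_succ _ k]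
    refine WP.seq (WP.map l2 (l := digL ν k) (mapVal_vec (by simp [a2]) (fun j => ?_))
      (fun l3 => ?_))
    · rw [Ex.val, Ex.val_mulLen (by simp)]
      simp [dropS, a1 .idx (by simp), h1, a2, dig, Nat.mod_def, Nat.div_div_eq_div_mul,
        pow_succ _ k]
    refine WP.seq (WP.cpy l3 (l := digL ν k) (by simp) (fun l4 => ?_))
    refine WP.cpy l4 (l := vec ((ν + 1) ^ 10) (fun j => j / (ν + 1) ^ (k + 1))) (by simp)
      (fun _ => ⟨rfl, ?_, by simp, fun i hi => ?_, by omega⟩)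
    · exact (((a1.update (by simp) _).update (by simp) _).update (by simp) _).update (by simp) _
    · by_cases hik : i = i0
      · subst hik; simp [e]
      · have := a3 i (by
          have : (i : ℕ) ≠ k := fun h => hik (Fin.ext (h.trans e.symm))
          omega)
        simpa [hik] using this

/-- index vectors and digit tables -/
def prep1 : P3 K :=
  .seq (.act (.set .nn (.top .inp))) (.seq (.act (.pop .inp))
  (.seq (.act (.set .nu (.add (.top .nn) (.add (.top .nn) (.top .nn)))))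
  (.seq (idxP .idx .cnt (.add (.top .nu) .one)) (.seq (cpy .id2 .idx)
  (.seq (idxP .idn .cnt (.top .nn)) (.seq (idxP .mix .cnt (.len .inp))
  (.seq (.act (.set .q .one)) (.seq (.act (.set .v (.lit 10)))
  (.seq (forP .v (.act (.set .q (.mulLen .idx .q))))
  (.seq (idxP .im .cnt (.top .q))
  (.seq (.act (.map .mul .im [] (.add (.mulLen .idx .im) (.len .idx))))
  (.seq (digs 10) (.seq (cpy .pa (.a 0)) (.seq (cpy .pb (.a 1))
  (.seq (cpy .ta (.a 0)) (.seq (cpy .tb (.a 1)) (cpy .tc (.a 2))))))))))))))))))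

/-- the tables that do not depend on the arcs -/
structure Base1 (n : ℕ) (s : K → List ℕ) : Prop where
  nn : s .nn = [n]
  nu : s .nu = [3 * n]
  idx : s .idx = vec (3 * n + 1) id
  id2 : s .id2 = vec (3 * n + 1) id
  idn : s .idn = vec n id
  im : s .im = vec ((3 * n + 1) ^ 10) id
  pa : s .pa = digL (3 * n) 0
  pb : s .pb = digL (3 * n) 1
  tab : Tab (3 * n) s

theorem wp_prep1 {n : ℕ} {l : List ℕ} {s : K → List ℕ} {F : List (List ℕ)} (h : Len B s)
    (hi : s .inp = n :: l) (hB : (3 * n + 1) ^ 10 + 1 ≤ B) :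
    WP B body prep1 s F (fun s' F' t => F' = F ∧ Base1 n s' ∧ s' .inp = l ∧
      s' .mix = vec l.length id ∧ s' .tt = s .tt ∧ t ≤ 12 * B + 110) := by
  have b1 : 3 * n + 1 ≤ (3 * n + 1) ^ 10 := Nat.le_self_pow (by omega) _
  have b2 : l.length + 1 ≤ B := by simpa [hi] using h .inp
  refine WP.seq (WP.set h (by omega) (x := n) (by simp [hi]) (fun l1 => ?_))
  refine WP.seq (WP.pop l1 (l := l) (by simp [hi]) (fun l2 => ?_))
  refine WP.seq (WP.set l2 (by omega) (x := 3 * n) (by simp [Ex.val]; omega) (fun l3 => ?_))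
  refine WP.seq ((WP.idxP (by simp) l3 (n := 3 * n + 1) (by simp [Ex.val]) (by omega)).mono ?_)
  rintro s4 F4 t4 l4 ⟨rfl, a4, c4, d4⟩
  refine WP.seq (WP.cpy l4 c4 (fun l5 => ?_))
  refine WP.seq ((WP.idxP (by simp) l5 (n := n) (by simp [a4 .nn]) (by omega)).mono ?_)
  rintro s6 F6 t6 l6 ⟨rfl, a6, c6, d6⟩
  refine WP.seq ((WP.idxP (by simp) l6 (n := l.length) (by simp [a6 .inp, a4 .inp])
    (by omega)).mono ?_)
  rintro s7 F7 t7 l7 ⟨rfl, a7, c7, d7⟩
  have e7 : s7 .idx = vec (3 * n + 1) id := by simp [a7 .idx, a6 .idx, c4]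
  refine WP.seq (WP.set l7 (by omega) (x := 1) rfl (fun l8 => ?_))
  refine WP.seq (WP.set l8 (by omega) (x := 10) (by simp) (fun l9 => ?_))
  refine WP.seq ((WP.forP (by omega) (fun i s' => Same [.q, .v] s7 s' ∧
    s' .q = [(3 * n + 1) ^ (10 - i)]) 1 10 ?_ _ l9 (by simp) ?_).mono ?_)
  · rintro i s1 hi l1 ⟨a1, a2⟩
    refine WP.set l1 (by omega) (x := (3 * n + 1) ^ (10 - i)) ?_
      (fun _ => ⟨rfl, by simp, ⟨(a1.update (by simp) _).update (by simp) _, by simp⟩, le_rfl⟩)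
    rw [Ex.val_mulLen (by simp), show 10 - i = 10 - (i + 1) + 1 by omega, pow_succ']
    simp [a1 .idx, e7, a2]
  · exact ⟨((Same.refl _ _).update (by simp) _).update (by simp) _, by simp⟩
  rintro s10 F10 t10 l10 ⟨rfl, ⟨a10, c10⟩, d10⟩
  refine WP.seq ((WP.idxP (by simp) l10 (n := (3 * n + 1) ^ 10) (by simp [c10]) hB).mono ?_)
  rintro s11 F11 t11 l11 ⟨rfl, a11, c11, d11⟩
  have e11 : s11 .idx = vec (3 * n + 1) id := by simp [a11 .idx, a10 .idx, e7]
  refine WP.seq (WP.map l11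
    (l := vec ((3 * n + 1) ^ 10) (fun j => (3 * n + 1) * j + (3 * n + 1)))
    (mapVal_vec (by simp [c11]) (fun j => ?_)) (fun l12 => ?_))
  · rw [Ex.val, Ex.val_mulLen (by simp)]
    simp [dropS, e11, c11]
  refine WP.seq ((wp_digs (ν := 3 * n) l12 (by simp [e11]) (by simp [c11]) (by simp) 10
    le_rfl).mono ?_)
  rintro s13 F13 t13 l13 ⟨rfl, a13, -, c13, d13⟩
  refine WP.seq (WP.cpy l13 (c13 0 (by simp)).1 (fun l14 => ?_))
  refine WP.seq (WP.cpy l14 (l := digL (3 * n) 1) (by simpa using (c13 1 (by simp)).1)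
    (fun l15 => ?_))
  refine WP.seq (WP.cpy l15 (l := digL (3 * n) 0) (by simpa using (c13 0 (by simp)).1)
    (fun l16 => ?_))
  refine WP.seq (WP.cpy l16 (l := digL (3 * n) 1) (by simpa using (c13 1 (by simp)).1)
    (fun l17 => ?_))
  refine WP.cpy l17 (l := digL (3 * n) 2) (by simpa using (c13 2 (by simp)).1)
    (fun _ => ⟨rfl, ⟨?_, ?_, ?_, ?_, ?_, ?_, by simp, by simp,
      ⟨fun i => by simpa using (c13 i i.2).1, fun i => by simpa using (c13 i i.2).2,
        by simp, by simp, by simp⟩⟩, ?_, ?_, ?_, by omega⟩)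
  · simp [a13 .nn, a11 .nn, a10 .nn, a7 .nn, a6 .nn, a4 .nn]
  · simp [a13 .nu, a11 .nu, a10 .nu, a7 .nu, a6 .nu, a4 .nu]
  · simp [a13 .idx, e11]
  · simp [a13 .id2, a11 .id2, a10 .id2, a7 .id2, a6 .id2]
  · simp [a13 .idn, a11 .idn, a10 .idn, a7 .idn, c6]
  · simp [a13 .im, c11]
  · simp [a13 .inp, a11 .inp, a10 .inp, a7 .inp, a6 .inp, a4 .inp]
  · simp [a13 .mix, a11 .mix, a10 .mix, c7]
  · simp [a13 .tt, a11 .tt, a10 .tt, a7 .tt, a6 .tt, a4 .tt]

/-- stacks used after the preparation -/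
def isW : K → Bool
  | .fl | .cnt | .res | .al | .out | .tt | .ex _ | .q | .ky | .ky2 | .inp => true
  | _ => false

theorem Base1.same {n : ℕ} {s s' : K → List ℕ} (h : Base1 n s) {ks : List K} (hs : Same ks s s')
    (hk : ∀ k ∈ ks, isW k = true ∨ k = .pc ∨ k = .rk) : Base1 n s' := by
  have e : ∀ k, isW k = false → k ≠ .pc → k ≠ .rk → s' k = s k := fun k h h1 h2 =>
    hs k (fun hm => by simpa [h, h1, h2] using hk k hm)
  exact ⟨by rw [e _ rfl (by simp) (by simp), h.nn], by rw [e _ rfl (by simp) (by simp), h.nu],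
    by rw [e _ rfl (by simp) (by simp), h.idx], by rw [e _ rfl (by simp) (by simp), h.id2],
    by rw [e _ rfl (by simp) (by simp), h.idn], by rw [e _ rfl (by simp) (by simp), h.im],
    by rw [e _ rfl (by simp) (by simp), h.pa], by rw [e _ rfl (by simp) (by simp), h.pb],
    ⟨fun i => by rw [e _ rfl (by simp) (by simp), h.tab.a],
      fun i => by rw [e _ rfl (by simp) (by simp), h.tab.c],
      by rw [e _ rfl (by simp) (by simp), h.tab.ta], by rw [e _ rfl (by simp) (by simp), h.tab.tb],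
      by rw [e _ rfl (by simp) (by simp), h.tab.tc]⟩⟩

/-- transitive closure and a linear extension -/
def prep2 : P3 K :=
  .seq (.act (.map .q .pa [.pb] (.add (.mulLen .idn .pa) (.top .pb))))
  (.seq (.act (.map .pc .q [.pa, .pb] (Ex.norm (.and (.lt (.top .pa) (.top .nn))
    (.and (.lt (.top .pb) (.top .nn)) (.nth .inp .mix .q))))))
  (.seq (.act (.set .cnt (.top .nn)))
  (.seq (forP .cnt (.act (.map .pc (.a 0) [.a 1] (Ex.norm (.or (precE (.a 0) (.a 1))
    (.and (precE (.a 0) .cnt) (precE .cnt (.a 1))))))))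
  (.seq (.act (.map .q .idx [] (.sum .id2 [] (precE .id2 .idx).norm)))
  (.seq (.act (.map .ky .q [.idx] (.add (.mulLen .id2 .q) (.top .idx))))
  (.seq (cpy .ky2 .ky)
  (.act (.map .rk .ky [] (.sum .ky2 [.id2] (Ex.norm (.and (.lt (.top .ky2) (.top .ky))
    (Ex.eq (.top .id2) (.top .nu)).not)))))))))))

/-- all tables -/
structure Base (G : Dag) (s : K → List ℕ) : Prop where
  b : Base1 G.n s
  p : PEnv (3 * G.n) G.prec s
  rk : s .rk = vec (3 * G.n + 1) G.rank

theorem Base.same {G : Dag} {s s' : K → List ℕ} (h : Base G s) {ks : List K} (hs : Same ks s s')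
    (hk : ∀ k ∈ ks, isW k = true) : Base G s' :=
  ⟨h.b.same hs (fun k hm => Or.inl (hk k hm)),
    h.p.same hs (fun hm => by simpa [isW] using hk _ hm) (fun hm => by simpa [isW] using hk _ hm)
      (fun hm => by simpa [isW] using hk _ hm),
    by rw [hs _ (fun hm => by simpa [isW] using hk _ hm), h.rk]⟩

open Classical in
theorem wp_prep2 (hB : 1 ≤ B) (G : Dag) {s : K → List ℕ} {F : List (List ℕ)} (h : Len B s)
    (hb : Base1 G.n s)
    (hi : s .inp = vec (G.n * G.n) (fun k => if G.arc (k / G.n) (k % G.n) then 1 else 0))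
    (hm : s .mix = vec (G.n * G.n) id) :
    WP B body prep2 s F (fun s' F' t => F' = F ∧ Base G s' ∧ s' .tt = s .tt ∧ t ≤ 3 * B + 8) := by
  have hn : G.n ≤ B := by simpa [hb.idn] using h .idn
  refine WP.seq (WP.map h (l := vec ((3 * G.n + 1) ^ 10)
    (fun j => G.n * dig (3 * G.n + 1) 0 j + dig (3 * G.n + 1) 1 j))
    (mapVal_vec (by simp [hb.pa]) (fun j => ?_)) (fun l1 => ?_))
  · rw [Ex.val, Ex.val_mulLen (by simp)]
    simp [dropS, hb.pa, hb.pb, hb.idn]
  refine WP.seq (WP.map l1 (l := vec ((3 * G.n + 1) ^ 10) (fun j =>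
    if War G.arc G.n (dig (3 * G.n + 1) 0 j) (dig (3 * G.n + 1) 1 j) then 1 else 0))
    (mapVal_vec (by simp) (fun j => Ex.val_norm ?_)) (fun l2 => ?_))
  · rw [war_top, Ex.tr_and, Ex.tr_and, Ex.tr_lt, Ex.tr_lt]
    set x := dig (3 * G.n + 1) 0 j with hx
    set y := dig (3 * G.n + 1) 1 j with hy
    have key : x < G.n → y < G.n → ((Ex.nth K.inp .mix .q).tr (dropS [K.q, .pa, .pb] j
        (update s .q (vec ((3 * G.n + 1) ^ 10)
          (fun j => G.n * dig (3 * G.n + 1) 0 j + dig (3 * G.n + 1) 1 j)))) ↔ G.arc x y) := by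
      intro h1 h2
      rw [Ex.tr, Ex.val_nth_vec (n := G.n * G.n)
        (f := fun k => if G.arc (k / G.n) (k % G.n) then 1 else 0) (by simp [dropS, hi])
        (by simp [dropS, hm]) (by simp) (by simp) (i := G.n * x + y)
        (by nlinarith) (by simp [dropS, hx, hy])]
      simp only [Nat.mul_add_div G.n_pos, Nat.div_eq_of_lt h2, add_zero, Nat.mul_add_mod,
        Nat.mod_eq_of_lt h2]
      simp
    have e1 : (Ex.top K.pa).val (dropS [K.q, .pa, .pb] j (update s .q (vec ((3 * G.n + 1) ^ 10)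
        (fun j => G.n * dig (3 * G.n + 1) 0 j + dig (3 * G.n + 1) 1 j)))) = x := by
      simp [dropS, hb.pa, hx]
    have e2 : (Ex.top K.pb).val (dropS [K.q, .pa, .pb] j (update s .q (vec ((3 * G.n + 1) ^ 10)
        (fun j => G.n * dig (3 * G.n + 1) 0 j + dig (3 * G.n + 1) 1 j)))) = y := by
      simp [dropS, hb.pb, hy]
    have e3 : (Ex.top K.nn).val (dropS [K.q, .pa, .pb] j (update s .q (vec ((3 * G.n + 1) ^ 10)
        (fun j => G.n * dig (3 * G.n + 1) 0 j + dig (3 * G.n + 1) 1 j)))) = G.n := by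
      simp [dropS, hb.nn]
    rw [e1, e2, e3]
    exact ⟨fun ⟨h1, h2, h3⟩ => (key h1 h2).1 h3,
      fun h => ⟨h.1, h.2.1, (key h.1 h.2.1).2 h⟩⟩
  refine WP.seq (WP.set l2 hB (x := G.n) (by simp [hb.nn]) (fun l3 => ?_))
  refine WP.seq ((WP.forPB hB (fun i s' => Same [.q, .pc, .cnt] s s' ∧
    PEnv (3 * G.n) (War G.arc i) s') 1 G.n hn ?_ _ l3 (by simp) ?_).mono ?_)
  · rintro i s1 hi l1 ⟨a1, a2⟩
    have a3 := a1.update (k := .cnt) (by simp) [i]
    have hp : ∀ j, PEnv (3 * G.n) (War G.arc (i + 1)) (dropS [K.a 0, .a 1] j (update s1 .cnt [i])) :=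
      fun j => (a2.same ((Same.refl [.cnt] _).update (by simp) _) (by simp) (by simp)
        (by simp)).same (Same.dropS _ _ _) (by simp) (by simp) (by simp)
    refine WP.map l1 (l := vec ((3 * G.n + 1) ^ 10) (fun j =>
      if War G.arc i (dig (3 * G.n + 1) 0 j) (dig (3 * G.n + 1) 1 j) then 1 else 0))
      (mapVal_vec (by simp [a1 (.a 0), hb.tab.a]) (fun j => Ex.val_norm ?_))
      (fun _ => ⟨rfl, by simp, ⟨a3.update (by simp) _,
        by simp [a2.pa], by simp [a2.pb], by simp⟩, le_rfl⟩)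
    have e0 : (dropS [K.a 0, .a 1] j (update s1 .cnt [i]) (.a 0)).headD 0 =
        dig (3 * G.n + 1) 0 j := by simp [dropS, a1 (.a 0), hb.tab.a]
    have e1 : (dropS [K.a 0, .a 1] j (update s1 .cnt [i]) (.a 1)).headD 0 =
        dig (3 * G.n + 1) 1 j := by simp [dropS, a1 (.a 1), hb.tab.a]
    have e2 : (dropS [K.a 0, .a 1] j (update s1 .cnt [i]) .cnt).headD 0 = i := by simp [dropS]
    rw [Ex.tr_or, Ex.tr_and,
      tr_precE (hp j) (by simp) (by simp) e0 e1 (dig_le _ _ _) (dig_le _ _ _),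
      tr_precE (hp j) (by simp) (by simp) e0 e2 (dig_le _ _ _) (by omega),
      tr_precE (hp j) (by simp) (by simp) e2 e1 (by omega) (dig_le _ _ _), ← war_step]
  · exact ⟨(((Same.refl _ _).update (by simp) _).update (by simp) _).update (by simp) _,
      by simp [hb.pa], by simp [hb.pb], by simp⟩
  rintro s4 F4 t4 l4 ⟨rfl, ⟨a4, c4⟩, d4⟩
  have p4 : PEnv (3 * G.n) G.prec s4 := by
    have : War G.arc 0 = G.prec := by ext u w; exact war_zero G
    rwa [this] at c4
  have b4 := hb.same a4 (by simp [isW])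
  refine WP.seq (WP.map l4 (l := vec (3 * G.n + 1) G.npred)
    (mapVal_vec (by simp [b4.idx]) (fun y => ?_)) (fun l5 => ?_))
  · exact Ex.val_count (n := 3 * G.n + 1) (by simp [dropS, b4.id2]) (fun z => G.prec z y)
      (fun z => tr_precE ((p4.same (Same.dropS _ _ _) (by simp) (by simp) (by simp)).same
        (Same.dropS _ _ _) (by simp) (by simp) (by simp)) (by simp) (by simp)
        (by simp [dropS, b4.id2]) (by simp [dropS, b4.idx]) (Nat.lt_succ_iff.1 z.2)
        (Nat.lt_succ_iff.1 y.2))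
  refine WP.seq (WP.map l5 (l := vec (3 * G.n + 1) G.key)
    (mapVal_vec (by simp) (fun y => ?_)) (fun l6 => ?_))
  · rw [Ex.val, Ex.val_mulLen (by simp)]
    simp [dropS, b4.idx, b4.id2, Dag.key]
  refine WP.seq (WP.cpy l6 (l := vec (3 * G.n + 1) G.key) (by simp) (fun l7 => ?_))
  refine WP.map l7 (l := vec (3 * G.n + 1) G.rank)
    (mapVal_vec (by simp) (fun y => ?_)) (fun l8 => ⟨rfl, ⟨?_, ?_, by simp⟩, ?_, by omega⟩)
  · exact Ex.val_count (n := 3 * G.n + 1) (by simp [dropS])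
      (fun z => G.key z < G.key y ∧ ¬ z = 3 * G.n) (fun z => by simp [dropS, b4.id2, b4.nu])
  · exact b4.same (ks := [.q, .ky, .ky2, .rk]) (((((Same.refl _ _).update (by simp) _).update
      (by simp) _).update (by simp) _).update (by simp) _) (by simp [isW])
  · exact p4.same (ks := [.q, .ky, .ky2, .rk]) (((((Same.refl _ _).update (by simp) _).update
      (by simp) _).update (by simp) _).update (by simp) _) (by simp) (by simp) (by simp)
  · simp [a4 .tt]

/-- the whole preparation -/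
def prep : P3 K := .seq prep1 prep2

theorem wp_prep (G : Dag) {s : K → List ℕ} {F : List (List ℕ)} (h : Len B s)
    (hi : s .inp = G.code) (hB : (3 * G.n + 1) ^ 10 + 1 ≤ B) :
    WP B body prep s F (fun s' F' t => F' = F ∧ Base G s' ∧ s' .tt = s .tt ∧
      t ≤ 15 * B + 118) := by
  refine WP.seq ((wp_prep1 h (hi.trans G.code_eq) hB).mono ?_)
  rintro s1 F1 t1 l1 ⟨rfl, a1, a2, a3, a4, a5⟩
  refine (wp_prep2 (by omega) G l1 a1 a2 (by simpa using a3)).mono ?_
  rintro s2 F2 t2 l2 ⟨rfl, b1, b2, b3⟩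
  exact ⟨rfl, b1, b2.trans a4, by omega⟩

end Vale.Agent.P324
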