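import Mathlib

/-! Perfect schedules: exchange and concatenation. -/

namespace Vale.Agent.P324

open Finset

variable (r : ℕ → ℕ → Prop)

/-- `τ` is a perfect schedule of `J`: every used slot holds exactly three jobs. -/
def Sched (J : Finset ℕ) (τ : ℕ → ℕ) : Prop :=
  (∀ y ∈ J, (J.filter (fun z => τ z = τ y)).card = 3) ∧ ∀ y ∈ J, ∀ z ∈ J, r y z → τ y < τ z

/-- `J` has a perfect schedule. -/
def Good (J : Finset ℕ) : Prop := ∃ τ, Sched r J τ

variable {r}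

theorem card_swap (J : Finset ℕ) {y b : ℕ} (hy : y ∈ J) (hb : b ∈ J) (p : ℕ → Prop)
    [DecidablePred p] :
    (J.filter (fun z => p (Equiv.swap y b z))).card = (J.filter p).card := by
  have hm : ∀ z ∈ J, Equiv.swap y b z ∈ J := by
    intro z hz
    rw [Equiv.swap_apply_def]
    split_ifs <;> assumption
  refine Finset.card_bij (fun z _ => Equiv.swap y b z) ?_ ?_ ?_
  · intro z hz
    rw [mem_filter] at hz ⊢
    exact ⟨hm z hz.1, hz.2⟩
  · intro z _ z' _ h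
    exact (Equiv.swap y b).injective h
  · intro z hz
    rw [mem_filter] at hz
    exact ⟨Equiv.swap y b z, mem_filter.2 ⟨hm z hz.1, by simpa using hz.2⟩, by simp⟩

theorem Sched.swap {J : Finset ℕ} {τ : ℕ → ℕ} (h : Sched r J τ) {y b : ℕ} (hy : y ∈ J)
    (hb : b ∈ J) (hlt : τ y < τ b) (h1 : ∀ z ∈ J, r y z → τ b < τ z)
    (h2 : ∀ z ∈ J, r z b → τ z < τ y) : Sched r J (fun z => τ (Equiv.swap y b z)) := by
  constructor
  · intro x hx
    rw [card_swap J hy hb (fun z => τ z = τ (Equiv.swap y b x))]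
    refine h.1 _ ?_
    rw [Equiv.swap_apply_def]
    split_ifs <;> assumption
  · intro u hu v hv huv
    have a1 := h.2 u hu v hv huv
    simp only [Equiv.swap_apply_def]
    split_ifs with c1 c2 c3 c4 c5 c6 c7 c8
    · subst c1 c2; omega
    · subst c1 c3; have := h1 _ hv huv; omega
    · subst c1; exact h1 _ hv huv
    · subst c4 c5; omega
    · subst c4 c6; omega
    · subst c4; omega
    · subst c7; omega
    · subst c8; exact h2 _ hu huv
    · exact a1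

theorem Sched.restrict {J A : Finset ℕ} {τ : ℕ → ℕ} (h : Sched r J τ) (hA : A ⊆ J)
    (hc : ∀ y ∈ A, ∀ z ∈ J, τ z = τ y → z ∈ A) : Sched r A τ := by
  refine ⟨fun y hy => ?_, fun y hy z hz => h.2 y (hA hy) z (hA hz)⟩
  rw [← h.1 y (hA hy)]
  congr 1
  ext z
  simp only [mem_filter]
  exact ⟨fun hz => ⟨hA hz.1, hz.2⟩, fun hz => ⟨hc y hy z hz.1 hz.2, hz.2⟩⟩

theorem Sched.concat {J A C : Finset ℕ} {τ₁ τ₂ : ℕ → ℕ} (h₁ : Sched r A τ₁) (h₂ : Sched r C τ₂)
    (hJ : ∀ y, y ∈ J ↔ y ∈ A ∨ y ∈ C) (hd : ∀ y ∈ A, y ∉ C) (hr : ∀ y ∈ C, ∀ z ∈ A, ¬ r y z) :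
    ∃ (τ : ℕ → ℕ) (K : ℕ), Sched r J τ ∧ (∀ y ∈ A, τ y = τ₁ y ∧ τ y < K) ∧
      ∀ y ∈ C, τ y = K + τ₂ y := by
  set K := A.sup τ₁ + 1 with hK
  have hlt : ∀ y ∈ A, τ₁ y < K := fun y hy => Nat.lt_succ_of_le (Finset.le_sup (f := τ₁) hy)
  set τ : ℕ → ℕ := fun y => if y ∈ A then τ₁ y else K + τ₂ y with hτ
  have hA : ∀ y ∈ A, τ y = τ₁ y := fun y hy => if_pos hy
  have hC : ∀ y ∈ C, τ y = K + τ₂ y := fun y hy => if_neg (fun h => hd y h hy)
  refine ⟨τ, K, ⟨fun y hy => ?_, fun y hy z hz hyz => ?_⟩,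
    fun y hy => ⟨hA y hy, by rw [hA y hy]; exact hlt y hy⟩, hC⟩
  · rcases (hJ y).1 hy with h | h
    · rw [← h₁.1 y h]
      congr 1
      ext z
      simp only [mem_filter, hJ]
      constructor
      · rintro ⟨hz | hz, e⟩
        · exact ⟨hz, by rwa [hA z hz, hA y h] at e⟩
        · have := hlt y h
          rw [hC z hz, hA y h] at e; omega
      · rintro ⟨hz, e⟩
        exact ⟨Or.inl hz, by rw [hA z hz, hA y h, e]⟩
    · rw [← h₂.1 y h]
      congr 1
      ext z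
      simp only [mem_filter, hJ]
      constructor
      · rintro ⟨hz | hz, e⟩
        · have := hlt z hz
          rw [hA z hz, hC y h] at e; omega
        · exact ⟨hz, by rw [hC z hz, hC y h] at e; omega⟩
      · rintro ⟨hz, e⟩
        exact ⟨Or.inr hz, by rw [hC z hz, hC y h, e]⟩
  · rcases (hJ y).1 hy with h | h <;> rcases (hJ z).1 hz with h' | h'
    · rw [hA y h, hA z h']; exact h₁.2 y h z h' hyz
    · have := hlt y h
      rw [hA y h, hC z h']; omega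
    · exact absurd hyz (hr y h z h')
    · have := h₂.2 y h z h' hyz
      rw [hC y h, hC z h']; omega

/-- number of jobs after `θ` -/
def aft (J : Finset ℕ) (θ : ℕ) (τ : ℕ → ℕ) : ℕ := (J.filter (fun z => τ θ < τ z)).card

variable (r) in
/-- schedules with `θ` as late as possible -/
def Late (J : Finset ℕ) (θ : ℕ) (τ : ℕ → ℕ) : Prop :=
  Sched r J τ ∧ ∀ τ', Sched r J τ' → aft J θ τ ≤ aft J θ τ'

theorem Good.exists_late {J : Finset ℕ} (h : Good r J) (θ : ℕ) : ∃ τ, Late r J θ τ := by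
  classical
  have : ∃ k, ∃ τ, Sched r J τ ∧ aft J θ τ = k := by
    obtain ⟨τ, hτ⟩ := h
    exact ⟨_, τ, hτ, rfl⟩
  obtain ⟨τ, h1, h2⟩ := Nat.find_spec this
  exact ⟨τ, h1, fun τ' h' => by rw [h2]; exact Nat.find_min' this ⟨τ', h', rfl⟩⟩

theorem Late.after (ht : ∀ ⦃a b c⦄, r a b → r b c → r a c) {J : Finset ℕ} {θ : ℕ} {τ : ℕ → ℕ} (h : Late r J θ τ)
    (hθ : θ ∈ J) (hs : ∀ z ∈ J, ¬ r θ z) (x : ℕ) (hx : x ∈ J) (hlt : τ θ < τ x) :
    ∃ b ∈ J, b ≠ θ ∧ τ b = τ θ ∧ r b x := by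
  induction hk : τ x using Nat.strong_induction_on generalizing x with
  | _ k ih =>
  by_contra hc
  have key : ∀ z ∈ J, r z x → τ z < τ θ := by
    intro z hz hzx
    have a1 := h.1.2 z hz x hx hzx
    by_contra a2
    rcases (not_lt.1 a2).eq_or_lt with a3 | a3
    · exact hc ⟨z, hz, by rintro rfl; exact hs x hx hzx, a3.symm, hzx⟩
    · obtain ⟨b, b1, b2, b3, b4⟩ := ih (τ z) (by omega) z hz a3 rfl
      exact hc ⟨b, b1, b2, b3, ht b4 hzx⟩
  have h1 := h.2 _ (h.1.swap hθ hx hlt (fun z hz hr => absurd hr (hs z hz)) key)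
  unfold aft at h1
  simp only [Equiv.swap_apply_left] at h1
  rw [card_swap J hθ hx (fun z => τ x < τ z)] at h1
  refine absurd h1 (not_le.2 (Finset.card_lt_card ⟨fun z hz => ?_, fun hsub => ?_⟩))
  · rw [mem_filter] at hz ⊢
    exact ⟨hz.1, by omega⟩
  · have := hsub (mem_filter.2 ⟨hx, hlt⟩)
    simp at this

theorem Sched.slot {J : Finset ℕ} {τ : ℕ → ℕ} (h : Sched r J τ) {a b c : ℕ} (ha : a ∈ J)
    (hb : b ∈ J) (hc : c ∈ J) (hab : b ≠ a) (hac : c ≠ a) (hbc : c ≠ b) (e1 : τ b = τ a)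
    (e2 : τ c = τ a) (z : ℕ) (hz : z ∈ J) : τ z = τ a ↔ z = a ∨ z = b ∨ z = c := by
  have h3 : ({a, b, c} : Finset ℕ).card = 3 :=
    Finset.card_eq_three.2 ⟨a, b, c, hab.symm, hac.symm, hbc.symm, rfl⟩
  have : ({a, b, c} : Finset ℕ) = J.filter (fun z => τ z = τ a) := by
    refine Finset.eq_of_subset_of_card_le ?_ (by rw [h.1 a ha, h3])
    intro z hz
    simp only [mem_insert, mem_singleton] at hz
    rcases hz with rfl | rfl | rfl <;> simp [*]
  have h4 := congrArg (fun s => z ∈ s) this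
  simp only [mem_insert, mem_singleton, mem_filter, hz, true_and, eq_iff_iff] at h4
  exact h4.symm

theorem Sched.exists_mate {J : Finset ℕ} {τ : ℕ → ℕ} (h : Sched r J τ) {a : ℕ} (ha : a ∈ J)
    (b : ℕ) : ∃ c ∈ J, c ≠ a ∧ c ≠ b ∧ τ c = τ a := by
  have h1 : ({a, b} : Finset ℕ).card < (J.filter (fun z => τ z = τ a)).card := by
    rw [h.1 a ha]
    exact Nat.lt_succ_of_le Finset.card_le_two
  obtain ⟨c, hc, hc'⟩ := Finset.exists_mem_notMem_of_card_lt_card h1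
  simp only [mem_filter, mem_insert, mem_singleton, not_or] at hc hc'
  exact ⟨c, hc.1, hc'.1, hc'.2, hc.2⟩

end Vale.Agent.P324
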