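import Vale.Agent.P324.Complete
import Vale.Agent.Lib.StackLang.VecLib2

/-! The dynamic program in the vector language. -/

namespace Vale.Agent.P324

open Vale.Agent.Lib.StackLang Function Finset

/-- Stack names. -/
inductive K : Type
  | inp | out | tt | nn | nu | cnt | idx | id2 | idn | mat | mix | im | v | q | mul
  | pa | pb | pc | ta | tb | tc | fl | rk | ky | ky2 | al | res
  | a : Fin 10 → K
  | c : Fin 10 → K
  | ex : Fin 16 → K
  deriving DecidableEq, Fintype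

/-- digits in base `N` -/
def dig (N : ℕ) (i : ℕ) (j : ℕ) : ℕ := j / N ^ i % N

theorem dig_le (ν i j : ℕ) : dig (ν + 1) i j ≤ ν := Nat.lt_succ_iff.1 (Nat.mod_lt _ (by omega))

theorem exists_dig (ν : ℕ) (d : Fin 10 → ℕ) (h : ∀ i, d i ≤ ν) :
    ∃ j : Fin ((ν + 1) ^ 10), ∀ i : Fin 10, dig (ν + 1) i j = d i := by
  refine ⟨finFunctionFinEquiv (fun i => ⟨d i, Nat.lt_succ_of_le (h i)⟩), fun i => ?_⟩
  have := congrArg (fun f => (f i : ℕ)) (finFunctionFinEquiv.symm_apply_apply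
    (fun i : Fin 10 => (⟨d i, Nat.lt_succ_of_le (h i)⟩ : Fin (ν + 1))))
  exact this

theorem exists_dig3 (ν : ℕ) (x y z : ℕ) (hx : x ≤ ν) (hy : y ≤ ν) (hz : z ≤ ν) :
    ∃ j : Fin ((ν + 1) ^ 10), dig (ν + 1) 0 j = x ∧ dig (ν + 1) 1 j = y ∧ dig (ν + 1) 2 j = z := by
  obtain ⟨j, hj⟩ := exists_dig ν ![x, y, z, 0, 0, 0, 0, 0, 0, 0]
    (fun i => by fin_cases i <;> simp [*])
  exact ⟨j, hj 0, hj 1, hj 2⟩

/-- the digit table -/
abbrev digL (ν i : ℕ) : List ℕ := vec ((ν + 1) ^ 10) (dig (ν + 1) i)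

open Classical in
/-- the relation table -/
structure PEnv (ν : ℕ) (r : ℕ → ℕ → Prop) (s : K → List ℕ) : Prop where
  pa : s .pa = digL ν 0
  pb : s .pb = digL ν 1
  pc : s .pc = vec ((ν + 1) ^ 10) (fun j =>
    if r (dig (ν + 1) 0 j) (dig (ν + 1) 1 j) then 1 else 0)

theorem PEnv.same {ν : ℕ} {r : ℕ → ℕ → Prop} {s s' : K → List ℕ} (h : PEnv ν r s) {ks : List K}
    (hs : Same ks s s') (h1 : K.pa ∉ ks) (h2 : K.pb ∉ ks) (h3 : K.pc ∉ ks) : PEnv ν r s' :=
  ⟨by rw [hs _ h1, h.pa], by rw [hs _ h2, h.pb], by rw [hs _ h3, h.pc]⟩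

/-- look up the relation -/
def precE (x y : K) : Ex K :=
  .sum .pc [.pa, .pb] (.and (.eq (.top .pa) (.top x)) (.and (.eq (.top .pb) (.top y))
    (.eq (.top .pc) .one)))

theorem tr_precE {ν : ℕ} {r : ℕ → ℕ → Prop} {s : K → List ℕ} (h : PEnv ν r s) {x y : K}
    (hx : x ∉ [K.pc, .pa, .pb]) (hy : y ∉ [K.pc, .pa, .pb]) {u w : ℕ}
    (eu : (s x).headD 0 = u) (ew : (s y).headD 0 = w) (hu : u ≤ ν) (hw : w ≤ ν) :
    (precE x y).tr s ↔ r u w := by
  rw [precE, Ex.tr_sum (n := (ν + 1) ^ 10) (by simp [h.pc])]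
  have key : ∀ j : Fin ((ν + 1) ^ 10), (Ex.and (.eq (.top K.pa) (.top x))
      (.and (.eq (.top .pb) (.top y)) (.eq (.top .pc) .one))).tr
      (dropS [K.pc, .pa, .pb] j s) ↔ dig (ν + 1) 0 j = u ∧ dig (ν + 1) 1 j = w ∧
        r (dig (ν + 1) 0 j) (dig (ν + 1) 1 j) := by
    intro j
    simp only [Ex.tr_and, Ex.tr_eq, Ex.val_top, Same.dropS _ _ s x hx, Same.dropS _ _ s y hy,
      eu, ew]
    simp [dropS, h.pa, h.pb, h.pc, Ex.val]
  simp only [key]
  constructor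
  · rintro ⟨j, rfl, rfl, h3⟩
    exact h3
  · intro hr
    obtain ⟨j, rfl, rfl, -⟩ := exists_dig3 ν u w 0 hu hw (Nat.zero_le _)
    exact ⟨j, rfl, rfl, hr⟩

/-- the tables describing the instance -/
structure Env (C : Ctx) (s : K → List ℕ) : Prop where
  p : PEnv C.ν C.r s
  nu : s .nu = [C.ν]
  idx : s .idx = vec (C.ν + 1) id
  al : s .al = vec (C.ν + 1) (fun y => if y ∈ C.W then 1 else 0)
  rk : s .rk = vec (C.ν + 1) C.ρ

/-- stacks of the environment -/
def envK : List K := [.pa, .pb, .pc, .nu, .idx, .al, .rk]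

theorem Env.same {C : Ctx} {s s' : K → List ℕ} (h : Env C s) {ks : List K}
    (hs : Same ks s s') (hk : ∀ k ∈ envK, k ∉ ks) : Env C s' :=
  ⟨h.p.same hs (hk _ (by simp [envK])) (hk _ (by simp [envK])) (hk _ (by simp [envK])),
    by rw [hs _ (hk _ (by simp [envK])), h.nu], by rw [hs _ (hk _ (by simp [envK])), h.idx],
    by rw [hs _ (hk _ (by simp [envK])), h.al], by rw [hs _ (hk _ (by simp [envK])), h.rk]⟩

/-- the state seen by job `y` -/
abbrev atY (y : ℕ) (s : K → List ℕ) : K → List ℕ := dropS [.idx, .al, .rk] y s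

/-- the expression `e` represents the predicate `p` on jobs -/
def Rep (C : Ctx) (e : Ex K) (s : K → List ℕ) (p : ℕ → Prop) : Prop :=
  ∀ y : Fin (C.ν + 1), e.tr (atY y s) ↔ p y

/-- the stack `x` holds a job or the empty mark -/
def Hd (C : Ctx) (s : K → List ℕ) (x : K) (u : ℕ) : Prop :=
  x ∉ envK ∧ (s x).headD 0 = u ∧ u ≤ C.ν

section
variable {C : Ctx} {s : K → List ℕ}

theorem Hd.atY {x : K} {u : ℕ} (h : Hd C s x u) (y : ℕ) : (atY y s x).headD 0 = u := by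
  rw [P324.atY, Same.dropS _ _ s x (fun hx => h.1 (by
    simp only [envK, List.mem_cons, List.not_mem_nil, or_false] at hx ⊢; tauto)), h.2.1]

theorem Hd.notMem {x : K} {u : ℕ} (h : Hd C s x u) : x ∉ [K.pc, .pa, .pb] := fun hx => h.1 (by
    simp only [envK, List.mem_cons, List.not_mem_nil, or_false] at hx ⊢; tauto)

theorem Hd.same {s' : K → List ℕ} {x : K} {u : ℕ} (h : Hd C s x u) {ks : List K}
    (hs : Same ks s s') (hx : x ∉ ks) : Hd C s' x u := ⟨h.1, by rw [hs x hx, h.2.1], h.2.2⟩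

theorem Env.idx_atY (h : Env C s) (y : Fin (C.ν + 1)) : (atY y s .idx).headD 0 = y := by
  simp [dropS, h.idx]

theorem Env.p_atY (h : Env C s) (y : ℕ) : PEnv C.ν C.r (atY y s) :=
  h.p.same (Same.dropS _ _ _) (by simp) (by simp) (by simp)

theorem rep_from (h : Env C s) {x : K} {u : ℕ} (hx : Hd C s x u) :
    Rep C (precE x .idx) s (fun y => C.r u y) := fun y =>
  tr_precE (h.p_atY y) hx.notMem (by simp) (hx.atY y) (h.idx_atY y) hx.2.2 (Nat.lt_succ_iff.1 y.2)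

theorem rep_to (h : Env C s) {x : K} {u : ℕ} (hx : Hd C s x u) :
    Rep C (precE .idx x) s (fun y => C.r y u) := fun y =>
  tr_precE (h.p_atY y) (by simp) hx.notMem (h.idx_atY y) (hx.atY y) (Nat.lt_succ_iff.1 y.2) hx.2.2

theorem rep_eq (h : Env C s) {x : K} {u : ℕ} (hx : Hd C s x u) :
    Rep C (.eq (.top .idx) (.top x)) s (fun y => y = u) := fun y => by
  rw [Ex.tr_eq, Ex.val_top, Ex.val_top, hx.atY, h.idx_atY]

theorem rep_nu (h : Env C s) {x : K} {u : ℕ} (hx : Hd C s x u) :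
    Rep C (.eq (.top x) (.top .nu)) s (fun _ => u = C.ν) := fun y => by
  rw [Ex.tr_eq, Ex.val_top, Ex.val_top, hx.atY]
  simp [dropS, h.nu]

theorem rep_rk (h : Env C s) {x : K} {u : ℕ} (hx : Hd C s x u) :
    Rep C (.lt (.top .rk) (.top x)) s (fun y => C.ρ y < u) := fun y => by
  rw [Ex.tr_lt, Ex.val_top, Ex.val_top, hx.atY]
  simp [dropS, h.rk]

theorem rep_al (h : Env C s) : Rep C (.top .al) s (fun y => y ∈ C.W) := fun y => by
  simp [Ex.tr, dropS, h.al]

theorem Rep.and {e e' : Ex K} {p p' : ℕ → Prop} (h : Rep C e s p) (h' : Rep C e' s p') :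
    Rep C (e.and e') s (fun y => p y ∧ p' y) := fun y => by rw [Ex.tr_and, h y, h' y]

theorem Rep.or {e e' : Ex K} {p p' : ℕ → Prop} (h : Rep C e s p) (h' : Rep C e' s p') :
    Rep C (e.or e') s (fun y => p y ∨ p' y) := fun y => by rw [Ex.tr_or, h y, h' y]

theorem Rep.not {e : Ex K} {p : ℕ → Prop} (h : Rep C e s p) :
    Rep C e.not s (fun y => ¬ p y) := fun y => by rw [Ex.tr_not, h y]

theorem Rep.xor {e e' : Ex K} {p p' : ℕ → Prop} (h : Rep C e s p) (h' : Rep C e' s p') :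
    Rep C (e.xor e') s (fun y => ¬ (p y ↔ p' y)) := fun y => by rw [Ex.tr_xor, h y, h' y]

theorem Rep.congr {e : Ex K} {p p' : ℕ → Prop} (h : Rep C e s p) (h' : ∀ y, p y ↔ p' y) :
    Rep C e s p' := fun y => (h y).trans (h' y)

end

/-- sum over the jobs -/
def sumY (e : Ex K) : Ex K := .sum .idx [.al, .rk] e

theorem tr_sumY {C : Ctx} {s : K → List ℕ} (h : Env C s) {e : Ex K} {p : ℕ → Prop}
    (he : Rep C e s p) : (sumY e).tr s ↔ ∃ y ≤ C.ν, p y := by
  rw [sumY, Ex.tr_sum (n := C.ν + 1) (by simp [h.idx])]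
  exact ⟨fun ⟨y, hy⟩ => ⟨y, Nat.lt_succ_iff.1 y.2, (he y).1 hy⟩,
    fun ⟨y, hy, hp⟩ => ⟨⟨y, Nat.lt_succ_of_le hy⟩, (he ⟨y, _⟩).2 hp⟩⟩

theorem val_cntY {C : Ctx} {s : K → List ℕ} (h : Env C s) {e : Ex K} {J : Finset ℕ}
    (hJ : ∀ y ∈ J, y ≤ C.ν) (he : Rep C e s (fun y => y ∈ J)) :
    (sumY e.norm).val s = J.card := by
  rw [sumY, Ex.val_count (n := C.ν + 1) (by simp [h.idx]) (fun y => y ∈ J) he]
  congr 1
  ext y
  simp only [mem_filter, mem_range]
  exact ⟨fun h => h.2, fun h => ⟨Nat.lt_succ_of_le (hJ y h), h⟩⟩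

/-- membership in a term -/
def termE (u w : K) : Ex K :=
  .and (.or (.eq (.top u) (.top .nu)) (precE .idx u)) (.lt (.top .rk) (.top w))

/-- membership in a described set -/
def memE (d : Fin 10 → K) : Ex K :=
  .and (.top .al) (.and
    (.or (.eq (.top (d 0)) (.top .nu)) (.or (precE (d 0) .idx) (precE (d 1) .idx)))
    (.and (.or (termE (d 2) (d 3)) (.or (termE (d 4) (d 5)) (termE (d 6) (d 7))))
      (.not (.or (.eq (.top .idx) (.top (d 8))) (.or (precE (d 8) .idx)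
        (.or (.eq (.top .idx) (.top (d 9))) (precE (d 9) .idx)))))))

theorem rep_memE {C : Ctx} {s : K → List ℕ} (h : Env C s) {d : Fin 10 → K} {dv : Fin 10 → ℕ}
    (hd : ∀ i, Hd C s (d i) (dv i)) : Rep C (memE d) s (C.mem dv) :=
  have t : ∀ i j, Rep C (termE (d i) (d j)) s (C.term (dv i) (dv j)) := fun i j =>
    ((rep_nu h (hd i)).or (rep_to h (hd i))).and (rep_rk h (hd j))
  (rep_al h).and (((rep_nu h (hd 0)).or ((rep_from h (hd 0)).or (rep_from h (hd 1)))).and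
    (((t 2 3).or ((t 4 5).or (t 6 7))).and ((rep_eq h (hd 8)).or ((rep_from h (hd 8)).or
      ((rep_eq h (hd 9)).or (rep_from h (hd 9))))).not))

/-- the two digit tables -/
def la : List K := List.ofFn K.a
def lc : List K := List.ofFn K.c

@[simp] theorem mem_la (k : K) : k ∈ la ↔ ∃ i, K.a i = k := by simp only [la, List.mem_ofFn]
@[simp] theorem mem_lc (k : K) : k ∈ lc ↔ ∃ i, K.c i = k := by simp only [lc, List.mem_ofFn]

open Classical in
/-- the described set -/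
noncomputable def Ctx.setOf (C : Ctx) (j : ℕ) : Finset ℕ :=
  C.W.filter (C.mem (fun i => dig (C.ν + 1) i j))

theorem Ctx.mem_setOf {C : Ctx} {j y : ℕ} :
    y ∈ C.setOf j ↔ C.mem (fun i => dig (C.ν + 1) i j) y := by
  simp only [Ctx.setOf, mem_filter]
  exact ⟨fun h => h.2, fun h => ⟨h.1, h⟩⟩

open Classical in
/-- the table of flags -/
noncomputable def flags (C : Ctx) (k : ℕ) : List ℕ :=
  vec ((C.ν + 1) ^ 10) (fun j => if C.Der k (C.setOf j) then 1 else 0)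

/-- look up a set in the table -/
def lookE (e : Ex K) : Ex K :=
  .sum .fl lc (.and (.top .fl) (.not (sumY (.xor (memE .c) e))))

theorem tr_lookE {C : Ctx} {s : K → List ℕ} (h : Env C s) (hc : ∀ i, s (.c i) = digL C.ν i)
    {k : ℕ} (hf : s .fl = flags C k) {e : Ex K} {J : Finset ℕ} (hJ : ∀ y ∈ J, y ∈ C.W)
    (he : ∀ j, Rep C e (dropS (.fl :: lc) j s) (fun y => y ∈ J)) :
    (lookE e).tr s ↔ C.Fam J ∧ C.Der k J := by
  rw [lookE, Ex.tr_sum (n := (C.ν + 1) ^ 10) (by simp [hf, flags])]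
  have key : ∀ j : Fin ((C.ν + 1) ^ 10), (Ex.and (.top K.fl) (.not (sumY (.xor (memE .c) e)))).tr
      (dropS (.fl :: lc) j s) ↔ C.Der k (C.setOf j) ∧ C.setOf j = J := by
    intro j
    have h' : Env C (dropS (.fl :: lc) j s) := h.same (Same.dropS _ _ _) (by simp [envK])
    rw [Ex.tr_and, Ex.tr_not, tr_sumY h' ((rep_memE h' (dv := fun i => dig (C.ν + 1) i j)
      (fun i => ⟨by simp [envK], by simp [dropS, hc], dig_le _ _ _⟩)).xor (he j))]
    refine and_congr (by simp [Ex.tr, dropS, hf, flags]) ?_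
    constructor
    · intro hn
      ext y
      rw [Ctx.mem_setOf]
      by_cases hy : y ≤ C.ν
      · by_contra hc
        exact hn ⟨y, hy, hc⟩
      · exact ⟨fun h => absurd (C.lt y h.1).le hy, fun h => absurd (C.lt y (hJ y h)).le hy⟩
    · rintro rfl ⟨y, _, hy⟩
      exact hy Ctx.mem_setOf.symm
  simp only [key]
  constructor
  · rintro ⟨j, h1, rfl⟩
    exact ⟨⟨_, fun i => dig_le _ _ _, fun y => Ctx.mem_setOf⟩, h1⟩
  · rintro ⟨⟨d, h1, h2⟩, h3⟩
    obtain ⟨j, hj⟩ := exists_dig C.ν d h1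
    have : C.setOf j = J := by
      ext y
      rw [Ctx.mem_setOf, h2, funext hj]
    exact ⟨j, by rw [this]; exact h3, this⟩

/-- membership in the slot -/
def inS (x y z : K) : Ex K :=
  .or (.eq (.top .idx) (.top x)) (.or (.eq (.top .idx) (.top y)) (.eq (.top .idx) (.top z)))

/-- successors of the two companions -/
def succE : Ex K := .or (precE .tb .idx) (precE .tc .idx)

def validE : Ex K :=
  .and (.eq (sumY (Ex.norm (.and (memE .a) (inS .ta .tb .tc)))) (.lit 3))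
    (.not (sumY (.and (memE .a) (.or (precE .ta .idx) (.and (inS .ta .tb .tc) succE)))))

def roundE : Ex K :=
  .or (.not (sumY (memE .a))) (.sum .ta [.tb, .tc] (.and validE
    (.and (lookE (.and (memE .a) (.and (inS .ta .tb .tc).not succE.not)))
      (lookE (.and (memE .a) succE)))))

/-- the digit tables are in place -/
structure Tab (ν : ℕ) (s : K → List ℕ) : Prop where
  a : ∀ i, s (.a i) = digL ν i
  c : ∀ i, s (.c i) = digL ν i
  ta : s .ta = digL ν 0
  tb : s .tb = digL ν 1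
  tc : s .tc = digL ν 2

theorem Tab.same {ν : ℕ} {s s' : K → List ℕ} (h : Tab ν s) {ks : List K} (hs : Same ks s s')
    (h1 : ∀ i, K.a i ∉ ks) (h2 : ∀ i, K.c i ∉ ks) (h3 : K.ta ∉ ks) (h4 : K.tb ∉ ks)
    (h5 : K.tc ∉ ks) : Tab ν s' :=
  ⟨fun i => by rw [hs _ (h1 i), h.a], fun i => by rw [hs _ (h2 i), h.c], by rw [hs _ h3, h.ta],
    by rw [hs _ h4, h.tb], by rw [hs _ h5, h.tc]⟩

theorem tr_empty {C : Ctx} {s : K → List ℕ} (h : Env C s) (ht : Tab C.ν s)
    (j : Fin ((C.ν + 1) ^ 10)) :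
    (sumY (memE .a)).not.tr (dropS (.a 0 :: la) j s) ↔ C.setOf j = ∅ := by
  have h' : Env C (dropS (.a 0 :: la) j s) := h.same (Same.dropS _ _ _) (by simp [envK])
  rw [Ex.tr_not, tr_sumY h' (rep_memE h' (dv := fun i => dig (C.ν + 1) i j)
    (fun i => ⟨by simp [envK], by simp [dropS, ht.a], dig_le _ _ _⟩)),
    Finset.eq_empty_iff_forall_notMem]
  simp only [Ctx.mem_setOf]
  exact ⟨fun hn y hy => hn ⟨y, (C.lt y hy.1).le, hy⟩, fun hn ⟨y, _, hy⟩ => hn y hy⟩

theorem tr_roundE {C : Ctx} {s : K → List ℕ} (h : Env C s) (ht : Tab C.ν s) {k : ℕ}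
    (hf : s .fl = flags C k) (j : Fin ((C.ν + 1) ^ 10)) :
    roundE.tr (dropS (.a 0 :: la) j s) ↔ C.Der (k + 1) (C.setOf j) := by
  classical
  rw [roundE, Ex.tr_or, tr_empty h ht j, Ctx.Der]
  refine or_congr Iff.rfl ?_
  set s1 := dropS (.a 0 :: la) j s with hs1
  have h1 : Env C s1 := h.same (Same.dropS _ _ _) (by simp [envK])
  rw [Ex.tr_sum (n := (C.ν + 1) ^ 10) (by simp [hs1, dropS, ht.ta])]
  set J := C.setOf j with hJ
  have hW : ∀ y ∈ J, y ∈ C.W := fun y hy => (Ctx.mem_setOf.1 hy).1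
  have key : ∀ i : Fin ((C.ν + 1) ^ 10), (Ex.and validE
      (.and (lookE (.and (memE .a) (.and (inS .ta .tb .tc).not succE.not)))
      (lookE (.and (memE .a) succE)))).tr (dropS [K.ta, .tb, .tc] i s1) ↔
      Valid C.r J (dig (C.ν + 1) 0 i) (dig (C.ν + 1) 1 i) (dig (C.ν + 1) 2 i) ∧
      (C.Fam (Lset C.r J (dig (C.ν + 1) 0 i) (dig (C.ν + 1) 1 i) (dig (C.ν + 1) 2 i)) ∧
        C.Der k (Lset C.r J (dig (C.ν + 1) 0 i) (dig (C.ν + 1) 1 i) (dig (C.ν + 1) 2 i))) ∧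
      (C.Fam (Rset C.r J (dig (C.ν + 1) 1 i) (dig (C.ν + 1) 2 i)) ∧
        C.Der k (Rset C.r J (dig (C.ν + 1) 1 i) (dig (C.ν + 1) 2 i))) := by
    intro i
    set s2 := dropS [K.ta, .tb, .tc] i s1 with hs2
    set x := dig (C.ν + 1) 0 i
    set y := dig (C.ν + 1) 1 i
    set z := dig (C.ν + 1) 2 i
    have reps : ∀ s3 ks, Same ks s2 s3 → (∀ k ∈ envK, k ∉ ks) → (∀ i, K.a i ∉ ks) →
        K.ta ∉ ks → K.tb ∉ ks → K.tc ∉ ks → Rep C (memE .a) s3 (fun w => w ∈ J) ∧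
        Rep C (inS .ta .tb .tc) s3 (fun w => w = x ∨ w = y ∨ w = z) ∧
        Rep C succE s3 (fun w => C.r y w ∨ C.r z w) ∧ Rep C (precE .ta .idx) s3 (C.r x) := by
      intro s3 ks hs a1 a2 a3 a4 a5
      have h3 : Env C s3 := (h1.same (Same.dropS _ _ _) (by simp [envK])).same hs a1
      have hx : Hd C s3 .ta x := ⟨by simp [envK],
        by rw [hs _ a3]; simp [hs2, hs1, dropS, ht.ta, x], dig_le _ _ _⟩
      have hy : Hd C s3 .tb y := ⟨by simp [envK],
        by rw [hs _ a4]; simp [hs2, hs1, dropS, ht.tb, y], dig_le _ _ _⟩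
      have hz : Hd C s3 .tc z := ⟨by simp [envK],
        by rw [hs _ a5]; simp [hs2, hs1, dropS, ht.tc, z], dig_le _ _ _⟩
      exact ⟨(rep_memE h3 (dv := fun i => dig (C.ν + 1) i j) (fun i => ⟨by simp [envK],
        by rw [hs _ (a2 i)]; simp [hs2, hs1, dropS, ht.a], dig_le _ _ _⟩)).congr
          (fun _ => Ctx.mem_setOf.symm),
        (rep_eq h3 hx).or ((rep_eq h3 hy).or (rep_eq h3 hz)),
        (rep_from h3 hy).or (rep_from h3 hz), rep_from h3 hx⟩
    have h2 : Env C s2 := h1.same (Same.dropS _ _ _) (by simp [envK])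
    have hc2 : ∀ i, s2 (.c i) = digL C.ν i := fun i => by simp [hs2, hs1, dropS, ht.c]
    have hf2 : s2 .fl = flags C k := by simp [hs2, hs1, dropS, hf]
    obtain ⟨r1, r2, r3, r4⟩ := reps s2 [] (Same.refl _ _) (by simp) (by simp) (by simp) (by simp)
      (by simp)
    have reps' := fun j' => reps _ _ (Same.dropS (.fl :: lc) j' s2) (by simp [envK]) (by simp)
      (by simp) (by simp) (by simp)
    rw [Ex.tr_and, Ex.tr_and,
      tr_lookE h2 hc2 hf2 (J := Lset C.r J x y z) (fun w hw => hW w (mem_Lset.1 hw).1)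
        (fun j' => ((reps' j').1.and ((reps' j').2.1.not.and (reps' j').2.2.1.not)).congr
          (fun _ => mem_Lset.symm)),
      tr_lookE h2 hc2 hf2 (J := Rset C.r J y z) (fun w hw => hW w (mem_Rset.1 hw).1)
        (fun j' => ((reps' j').1.and (reps' j').2.2.1).congr (fun _ => mem_Rset.symm)),
      validE, Ex.tr_and, Ex.tr_eq, Ex.tr_not, tr_sumY h2 (r1.and (r4.or (r2.and r3))),
      val_cntY h2 (J := J.filter (fun w => w = x ∨ w = y ∨ w = z))
        (fun w hw => (C.lt w (hW w (mem_filter.1 hw).1)).le)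
        ((r1.and r2).congr (fun _ => by rw [mem_filter])), Ex.val_lit, Valid]
    refine and_congr (and_congr Iff.rfl ?_) Iff.rfl
    exact ⟨fun hn w hw h => hn ⟨w, (C.lt w (hW w hw)).le, hw, h⟩, fun hn ⟨w, _, hw, h⟩ => hn w hw h⟩
  simp only [key]
  constructor
  · rintro ⟨i, h⟩
    exact ⟨_, dig_le _ _ _, _, dig_le _ _ _, _, dig_le _ _ _, h⟩
  · rintro ⟨x, hx, y, hy, z, hz, h⟩
    obtain ⟨i, rfl, rfl, rfl⟩ := exists_dig3 C.ν x y z hx hy hz
    exact ⟨i, h⟩

/-- decide whether the alive jobs have a perfect schedule -/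
def solve : P3 K :=
  .seq (.act (.map .fl (.a 0) la (sumY (memE .a)).not.norm))
  (.seq (.act (.set .cnt (.len .idx)))
  (.seq (forP .cnt (.act (.map .fl (.a 0) la roundE.norm)))
  (.act (.set .res (lookE (.top .al)).norm))))

open Classical in
theorem wp_solve {B : ℕ} {body : P3 K} (hB : 1 ≤ B) (C : Ctx) {s : K → List ℕ}
    {F : List (List ℕ)} (h : Len B s) (hE : Env C s) (ht : Tab C.ν s) :
    WP B body solve s F (fun s' F' t => F' = F ∧ Same [.fl, .cnt, .res] s s' ∧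
      t ≤ 3 * C.ν + 7 ∧ s' .res = [if Good C.r C.W then 1 else 0]) := by
  refine WP.seq (WP.map h (l := flags C 0)
    (mapVal_vec (by simp [ht.a]) (fun j => Ex.val_norm (tr_empty hE ht j))) (fun h1 => ?_))
  refine WP.seq (WP.set h1 hB (x := C.ν + 1) (by simp [hE.idx]) (fun h2 => ?_))
  refine WP.seq ((WP.forP hB (fun i s' => Same [.fl, .cnt, .res] s s' ∧
    s' .fl = flags C (C.ν + 1 - i)) 1 (C.ν + 1) ?_ _ h2 (by simp) ?_).mono ?_)
  · rintro i s1 hi l1 ⟨a1, a2⟩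
    have a3 := a1.update (k := .cnt) (by simp) [i]
    have e : C.ν + 1 - i = C.ν + 1 - (i + 1) + 1 := by omega
    refine WP.map l1 (l := flags C (C.ν + 1 - i)) (mapVal_vec
      (by simp [a1 (.a 0) (by simp), ht.a]) (fun j => Ex.val_norm ?_))
      (fun _ => ⟨rfl, by simp, ⟨a3.update (by simp) _, by simp⟩, le_rfl⟩)
    rw [e]
    exact tr_roundE (hE.same a3 (by simp [envK]))
      (ht.same a3 (by simp) (by simp) (by simp) (by simp) (by simp)) (by simp [a2]) j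
  · exact ⟨((Same.refl _ _).update (by simp) _).update (by simp) _, by simp⟩
  rintro s3 F3 t3 l3 ⟨rfl, ⟨a1, a2⟩, ht3⟩
  have h3 := hE.same a1 (by simp [envK])
  refine WP.set l3 hB (Ex.val_norm (p := Good C.r C.W) ?_)
    (fun _ => ⟨rfl, a1.update (by simp) _, by omega, by simp⟩)
  rw [tr_lookE h3 (fun i => by rw [a1 _ (by simp), ht.c]) a2 (J := C.W) (fun _ h => h)
    (fun j => rep_al (h3.same (Same.dropS _ _ _) (by simp [envK]))), C.good_iff]
  have : C.W ⊆ range C.ν := fun y hy => mem_range.2 (C.lt y hy)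
  have := Finset.card_le_card this
  simp at this
  omega

end Vale.Agent.P324
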